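import Vale.Agent.P363.MathlibUsed

/-! Abstract variational lemmas (existence of minimisers without weak compactness, Euler-Lagrange
equation, spectral gap above the minimisers). -/

namespace Vale.Agent.P363.H382.Abs

open Filter Topology

noncomputable section

variable {𝕜 : Type*} [RCLike 𝕜]
variable {V : Type*} [NormedAddCommGroup V] [InnerProductSpace 𝕜 V]
variable {H : Type*} [NormedAddCommGroup H] [InnerProductSpace 𝕜 H]
variable {F : Type*} [NormedAddCommGroup F] [NormedSpace 𝕜 F]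

/-- bounded hermitian form -/
def Herm (B : V →L⋆[𝕜] V →L[𝕜] 𝕜) : Prop := ∀ u v, (starRingEnd 𝕜) (B u v) = B v u

/-- its quadratic form -/
def qf (B : V →L⋆[𝕜] V →L[𝕜] 𝕜) (u : V) : ℝ := RCLike.re (B u u)

theorem qf_parallelogram (B : V →L⋆[𝕜] V →L[𝕜] 𝕜) (u v : V) :
    qf B (u + v) + qf B (u - v) = 2 * qf B u + 2 * qf B v := by
  simp only [qf, map_add, map_sub, add_apply, sub_apply]
  ring

theorem qf_smul (B : V →L⋆[𝕜] V →L[𝕜] 𝕜) (c : 𝕜) (u : V) : qf B (c • u) = ‖c‖ ^ 2 * qf B u := by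
  simp only [qf, map_smulₛₗ, smul_apply, smul_eq_mul, RingHom.id_apply]
  have : c * ((starRingEnd 𝕜) c * B u u) = ((‖c‖ ^ 2 : ℝ) : 𝕜) * B u u := by
    rw [← mul_assoc, RCLike.mul_conj]
    push_cast
    ring
  rw [this, RCLike.re_ofReal_mul]

theorem qf_add {B : V →L⋆[𝕜] V →L[𝕜] 𝕜} (hB : Herm B) (u v : V) :
    qf B (u + v) = qf B u + 2 * RCLike.re (B u v) + qf B v := by
  have h : RCLike.re (B v u) = RCLike.re (B u v) := by
    rw [← hB u v, RCLike.conj_re]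
  simp only [qf, map_add, add_apply]
  rw [h]
  ring

theorem qf_continuous (B : V →L⋆[𝕜] V →L[𝕜] 𝕜) : Continuous (qf B) := by
  unfold qf
  have h : Continuous fun u : V => B u u :=
    (ContinuousLinearMap.continuous B).clm_apply continuous_id
  exact RCLike.continuous_re.comp h

/-- the form `B u v - E ⟪J u, J v⟫`. -/
def shiftB (B : V →L⋆[𝕜] V →L[𝕜] 𝕜) (J : V →L[𝕜] H) (E : ℝ) : V →L⋆[𝕜] V →L[𝕜] 𝕜 :=
  B - (E : 𝕜) • ((ContinuousLinearMap.compL 𝕜 V H 𝕜).flip J).comp ((innerSL 𝕜 : H →L⋆[𝕜] H →L[𝕜] 𝕜).comp J)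

theorem shiftB_apply (B : V →L⋆[𝕜] V →L[𝕜] 𝕜) (J : V →L[𝕜] H) (E : ℝ) (u v : V) :
    shiftB B J E u v = B u v - (E : 𝕜) * inner 𝕜 (J u) (J v) := by
  simp [shiftB, RCLike.real_smul_eq_coe_mul]

theorem shiftB_herm {B : V →L⋆[𝕜] V →L[𝕜] 𝕜} (hB : Herm B) (J : V →L[𝕜] H) (E : ℝ) :
    Herm (shiftB B J E) := by
  intro u v
  rw [shiftB_apply, shiftB_apply, map_sub, hB u v, map_mul, RCLike.conj_ofReal, inner_conj_symm]

theorem qf_shiftB (B : V →L⋆[𝕜] V →L[𝕜] 𝕜) (J : V →L[𝕜] H) (E : ℝ) (u : V) :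
    qf (shiftB B J E) u = qf B u - E * ‖J u‖ ^ 2 := by
  rw [qf, shiftB_apply, map_sub, RCLike.re_ofReal_mul, inner_self_eq_norm_sq, qf]

/-- The hypotheses of the variational lemmas: hermitian form, Garding inequality, and the
inequality `q ≥ a ‖J‖² - K ‖L‖²` with `L` of finite rank. -/
structure Data (B : V →L⋆[𝕜] V →L[𝕜] 𝕜) (J : V →L[𝕜] H) (L : V →L[𝕜] F) (a : ℝ) : Prop where
  herm : Herm B
  garding : ∃ c C : ℝ, 0 < c ∧ 0 ≤ C ∧ ∀ u, c * ‖u‖ ^ 2 ≤ qf B u + C * ‖J u‖ ^ 2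
  low : ∃ K : ℝ, 0 ≤ K ∧ ∀ u, a * ‖J u‖ ^ 2 - K * ‖L u‖ ^ 2 ≤ qf B u

variable {B : V →L⋆[𝕜] V →L[𝕜] 𝕜} {J : V →L[𝕜] H} {L : V →L[𝕜] F} {a E : ℝ}

/-- almost minimisers are precompact. -/
theorem Data.precompact [CompleteSpace V] [FiniteDimensional 𝕜 F] (D : Data B J L a)
    (hE : E < a) (hlow : ∀ u, E * ‖J u‖ ^ 2 ≤ qf B u) (u : ℕ → V) (M : ℝ)
    (hM : ∀ n, ‖J (u n)‖ ≤ M) (hq : Tendsto (fun n => qf B (u n) - E * ‖J (u n)‖ ^ 2) atTop (𝓝 0)) :
    ∃ (φ : ℕ → ℕ) (w : V), StrictMono φ ∧ Tendsto (u ∘ φ) atTop (𝓝 w) ∧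
      qf B w = E * ‖J w‖ ^ 2 := by
  obtain ⟨c, C, hc, hC, hG⟩ := D.garding
  obtain ⟨K, hK, hL⟩ := D.low
  have hM0 : 0 ≤ M := (norm_nonneg _).trans (hM 0)
  -- boundedness
  obtain ⟨R, hR⟩ : ∃ R, ∀ n, qf B (u n) - E * ‖J (u n)‖ ^ 2 ≤ R := by
    obtain ⟨R, hR⟩ := hq.bddAbove_range
    exact ⟨R, fun n => hR ⟨n, rfl⟩⟩
  have hb : ∀ n, ‖u n‖ ^ 2 ≤ (R + (|E| + C) * M ^ 2) / c := by
    intro n
    rw [le_div_iff₀ hc]
    have h1 := hG (u n)
    have h2 := hR n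
    have h3 : ‖J (u n)‖ ^ 2 ≤ M ^ 2 := by
      have := hM n
      gcongr
    have h4 : E * ‖J (u n)‖ ^ 2 ≤ |E| * M ^ 2 :=
      (mul_le_mul_of_nonneg_right (le_abs_self E) (sq_nonneg _)).trans
        (mul_le_mul_of_nonneg_left h3 (abs_nonneg _))
    have h5 : C * ‖J (u n)‖ ^ 2 ≤ C * M ^ 2 := mul_le_mul_of_nonneg_left h3 hC
    nlinarith
  -- boundedness of `L`
  have hLb : ∀ n, L (u n) ∈ Metric.closedBall (0 : F)
      (‖L‖ * Real.sqrt ((R + (|E| + C) * M ^ 2) / c)) := by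
    intro n
    rw [mem_closedBall_zero_iff]
    refine (L.le_opNorm _).trans (mul_le_mul_of_nonneg_left ?_ (norm_nonneg _))
    exact Real.le_sqrt_of_sq_le (hb n)
  have : ProperSpace F := FiniteDimensional.proper 𝕜 F
  obtain ⟨p, -, φ, hφ, hp⟩ := (isCompact_closedBall (0 : F) _).tendsto_subseq hLb
  -- Cauchy
  have key : ∀ m n : ℕ, c * ‖u m - u n‖ ^ 2 ≤
      (1 + (|E| + C) / (a - E)) *
        (2 * (qf B (u m) - E * ‖J (u m)‖ ^ 2) + 2 * (qf B (u n) - E * ‖J (u n)‖ ^ 2)) +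
      ((|E| + C) / (a - E)) * K * ‖L (u m) - L (u n)‖ ^ 2 := by
    intro m n
    have haE : 0 < a - E := sub_pos.2 hE
    have h1 := hG (u m - u n)
    have h2 := hL (u m - u n)
    have h3 := hlow (u m + u n)
    have h4 := qf_parallelogram B (u m) (u n)
    have h5 : ‖J (u m + u n)‖ ^ 2 + ‖J (u m - u n)‖ ^ 2 = 2 * ‖J (u m)‖ ^ 2 + 2 * ‖J (u n)‖ ^ 2 := by
      have := parallelogram_law_with_norm 𝕜 (J (u m)) (J (u n))
      rw [map_add, map_sub]
      nlinarith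
    rw [map_sub L] at h2
    set P := 2 * (qf B (u m) - E * ‖J (u m)‖ ^ 2) + 2 * (qf B (u n) - E * ‖J (u n)‖ ^ 2) with hP
    set d := ‖J (u m - u n)‖ ^ 2 with hd
    set l := ‖L (u m) - L (u n)‖ ^ 2 with hl
    have hd0 : 0 ≤ d := sq_nonneg _
    have hl0 : 0 ≤ l := sq_nonneg _
    have h6 : qf B (u m - u n) - E * d ≤ P := by
      have : E * (‖J (u m + u n)‖ ^ 2 + d) = E * (2 * ‖J (u m)‖ ^ 2 + 2 * ‖J (u n)‖ ^ 2) := by
        rw [h5]
      rw [hP]
      nlinarith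
    have h7 : (a - E) * d ≤ P + K * l := by nlinarith
    have h8 : d ≤ (P + K * l) / (a - E) := by
      rw [le_div_iff₀ haE]; linarith
    have h9 : (E + C) * d ≤ (|E| + C) * ((P + K * l) / (a - E)) := by
      calc (E + C) * d ≤ (|E| + C) * d := by
            apply mul_le_mul_of_nonneg_right _ hd0
            linarith [le_abs_self E]
        _ ≤ _ := mul_le_mul_of_nonneg_left h8 (by positivity)
    calc c * ‖u m - u n‖ ^ 2 ≤ qf B (u m - u n) + C * d := h1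
      _ ≤ P + (E + C) * d := by linarith
      _ ≤ P + (|E| + C) * ((P + K * l) / (a - E)) := by linarith
      _ = _ := by ring
  have hcau : CauchySeq (u ∘ φ) := by
    rw [Metric.cauchySeq_iff']
    intro ε hε
    have hLc : CauchySeq (fun n => L (u (φ n))) := hp.cauchySeq
    set A := 1 + (|E| + C) / (a - E) with hA
    have haE : 0 < a - E := sub_pos.2 hE
    have hA1 : 0 < A := by positivity
    set Q := ((|E| + C) / (a - E)) * K with hQ
    have hQ0 : 0 ≤ Q := by positivity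
    -- choose small
    have hε2 : 0 < c * ε ^ 2 / 2 := by positivity
    have hqφ := hq.comp hφ.tendsto_atTop
    have e1 : ∀ᶠ n in atTop, qf B (u (φ n)) - E * ‖J (u (φ n))‖ ^ 2 < c * ε ^ 2 / (8 * A) := by
      have : 0 < c * ε ^ 2 / (8 * A) := by positivity
      exact (tendsto_order.1 hqφ).2 _ this
    obtain ⟨N1, hN1⟩ := eventually_atTop.1 e1
    obtain ⟨N2, hN2⟩ := Metric.cauchySeq_iff.1 hLc (Real.sqrt (c * ε ^ 2 / (4 * (Q + 1))))
      (Real.sqrt_pos.2 (by positivity))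
    refine ⟨max N1 N2, fun n hn => ?_⟩
    have hn1 := hN1 n (le_of_max_le_left hn)
    have hm1 := hN1 (max N1 N2) (le_max_left _ _)
    have hl := hN2 n (le_of_max_le_right hn) (max N1 N2) (le_max_right _ _)
    have hl2 : ‖L (u (φ n)) - L (u (φ (max N1 N2)))‖ ^ 2 ≤ c * ε ^ 2 / (4 * (Q + 1)) := by
      rw [dist_eq_norm] at hl
      calc _ ≤ (Real.sqrt (c * ε ^ 2 / (4 * (Q + 1)))) ^ 2 := by gcongr
        _ = _ := Real.sq_sqrt (by positivity)
    have hk := key (φ n) (φ (max N1 N2))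
    have hA2 : A * (2 * (qf B (u (φ n)) - E * ‖J (u (φ n))‖ ^ 2) +
        2 * (qf B (u (φ (max N1 N2))) - E * ‖J (u (φ (max N1 N2)))‖ ^ 2)) < c * ε ^ 2 / 2 := by
      have : A * (4 * (c * ε ^ 2 / (8 * A))) = c * ε ^ 2 / 2 := by
        field_simp
        ring
      rw [← this]
      apply mul_lt_mul_of_pos_left _ hA1
      linarith
    have hQ2 : Q * ‖L (u (φ n)) - L (u (φ (max N1 N2)))‖ ^ 2 ≤ c * ε ^ 2 / 4 := by
      calc _ ≤ (Q + 1) * (c * ε ^ 2 / (4 * (Q + 1))) := by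
            apply mul_le_mul (by linarith) hl2 (sq_nonneg _) (by positivity)
        _ = c * ε ^ 2 / 4 := by field_simp
    have hfin : c * ‖u (φ n) - u (φ (max N1 N2))‖ ^ 2 < c * ε ^ 2 := by
      have : 0 < c * ε ^ 2 := by positivity
      linarith
    rw [dist_eq_norm]
    have := lt_of_mul_lt_mul_left hfin hc.le
    exact lt_of_pow_lt_pow_left₀ 2 hε.le this
  obtain ⟨w, hw⟩ := cauchySeq_tendsto_of_complete hcau
  refine ⟨φ, w, hφ, hw, ?_⟩
  have c1 : Tendsto (fun n => qf B (u (φ n)) - E * ‖J (u (φ n))‖ ^ 2) atTop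
      (𝓝 (qf B w - E * ‖J w‖ ^ 2)) := by
    have h1 := ((qf_continuous B).tendsto w).comp hw
    have h2 := ((J.continuous.norm.pow 2).tendsto w).comp hw
    exact h1.sub (h2.const_mul E)
  have := tendsto_nhds_unique c1 (hq.comp hφ.tendsto_atTop)
  linarith

/-- existence of a minimiser. -/
theorem Data.exists_min [CompleteSpace V] [FiniteDimensional 𝕜 F] (D : Data B J L a)
    (hE : E < a) (hlow : ∀ u, E * ‖J u‖ ^ 2 ≤ qf B u)
    (hinf : ∀ ε > 0, ∃ u, ‖J u‖ = 1 ∧ qf B u < E + ε) :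
    ∃ w, ‖J w‖ = 1 ∧ qf B w = E := by
  choose! f hf1 hf2 using hinf
  have hpos : ∀ n : ℕ, (0 : ℝ) < 1 / ((n : ℝ) + 1) := fun n => by positivity
  obtain ⟨φ, w, hφ, hw, hq⟩ := D.precompact hE hlow (fun n : ℕ => f (1 / ((n : ℝ) + 1))) 1
    (fun n => (hf1 _ (hpos n)).le) (by
      refine squeeze_zero (g := fun n : ℕ => 1 / ((n : ℝ) + 1)) (fun n => ?_) (fun n => ?_)
        tendsto_one_div_add_atTop_nhds_zero_nat
      · have := hlow (f (1 / ((n : ℝ) + 1)))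
        linarith
      · have h1 := hf1 _ (hpos n)
        have h2 := hf2 _ (hpos n)
        rw [h1]
        linarith)
  have hn : ‖J w‖ = 1 := by
    have h1 : Tendsto (fun n => ‖J (f (1 / (((φ n : ℕ) : ℝ) + 1)))‖) atTop (𝓝 ‖J w‖) :=
      ((J.continuous.norm).tendsto w).comp hw
    have h2 : (fun n => ‖J (f (1 / (((φ n : ℕ) : ℝ) + 1)))‖) = fun _ => 1 := by
      funext n
      exact hf1 _ (hpos _)
    rw [h2] at h1
    exact (tendsto_nhds_unique h1 tendsto_const_nhds)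
  exact ⟨w, hn, by rw [hq, hn]; ring⟩

/-- existence of a minimiser, with the infimum as energy. -/
theorem Data.exists_min' [CompleteSpace V] [FiniteDimensional 𝕜 F] (D : Data B J L a)
    (h0 : ∃ u, ‖J u‖ = 1 ∧ qf B u < a) :
    ∃ w, ‖J w‖ = 1 ∧ ∀ u, qf B w * ‖J u‖ ^ 2 ≤ qf B u := by
  obtain ⟨c, C, hc, hC, hG⟩ := D.garding
  obtain ⟨u0, hu0, hu0'⟩ := h0
  set S : Set ℝ := {t | ∃ u, ‖J u‖ = 1 ∧ qf B u = t} with hS
  have hbdd : BddBelow S := by
    refine ⟨-C, ?_⟩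
    rintro t ⟨u, hu, rfl⟩
    have := hG u
    rw [hu] at this
    have h2 : 0 ≤ c * ‖u‖ ^ 2 := by positivity
    linarith
  have hne : S.Nonempty := ⟨_, u0, hu0, rfl⟩
  have hEa : sInf S < a := (csInf_le hbdd ⟨u0, hu0, rfl⟩).trans_lt hu0'
  have hlow : ∀ u, sInf S * ‖J u‖ ^ 2 ≤ qf B u := by
    intro u
    by_cases hJ : J u = 0
    · rw [hJ, norm_zero]
      by_contra hcon
      push Not at hcon
      have hneg : qf B u < 0 := by simpa using hcon
      have h1 := hG u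
      rw [hJ, norm_zero] at h1
      have h2 : 0 ≤ c * ‖u‖ ^ 2 := by positivity
      simp at h1
      linarith
    · have hpos : 0 < ‖J u‖ := norm_pos_iff.2 hJ
      have h1 : ‖J (((‖J u‖⁻¹ : ℝ) : 𝕜) • u)‖ = 1 := by
        rw [map_smul, norm_smul, RCLike.norm_ofReal, abs_of_pos (inv_pos.2 hpos)]
        exact inv_mul_cancel₀ hpos.ne'
      have h2 : sInf S ≤ qf B (((‖J u‖⁻¹ : ℝ) : 𝕜) • u) := csInf_le hbdd ⟨_, h1, rfl⟩
      rw [qf_smul, RCLike.norm_ofReal, abs_of_pos (inv_pos.2 hpos), inv_pow, ← div_eq_inv_mul,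
        le_div_iff₀ (by positivity)] at h2
      exact h2
  obtain ⟨w, hw, hwE⟩ := D.exists_min hEa hlow (by
    intro ε hε
    obtain ⟨t, ⟨u, hu, rfl⟩, ht⟩ := exists_lt_of_csInf_lt hne (lt_add_of_pos_right (sInf S) hε)
    exact ⟨u, hu, ht⟩)
  exact ⟨w, hw, by rw [hwE]; exact hlow⟩

/-- Euler-Lagrange equation for minimisers. -/
theorem euler_lagrange (hB : Herm B) (hlow : ∀ u, E * ‖J u‖ ^ 2 ≤ qf B u) {w : V}
    (hw : qf B w = E * ‖J w‖ ^ 2) (v : V) : B w v = (E : 𝕜) * inner 𝕜 (J w) (J v) := by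
  -- `p = q - E ‖J‖²` is nonnegative and vanishes at `w`
  have hS := shiftB_herm hB J E
  have hp : ∀ u, 0 ≤ qf (shiftB B J E) u := fun u => by
    rw [qf_shiftB]; linarith [hlow u]
  have hpw : qf (shiftB B J E) w = 0 := by rw [qf_shiftB, hw]; ring
  have hre : ∀ v, RCLike.re (shiftB B J E w v) = 0 := by
    intro v
    by_contra hne
    set r := RCLike.re (shiftB B J E w v) with hr
    set Q := qf (shiftB B J E) v with hQ
    have hQ0 : 0 ≤ Q := hp v
    have h1 : ∀ t : ℝ, 0 ≤ 2 * t * r + t ^ 2 * Q := by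
      intro t
      have h2 := hp (w + (t : 𝕜) • v)
      rw [qf_add hS, hpw, qf_smul, map_smul, smul_eq_mul, RCLike.re_ofReal_mul,
        RCLike.norm_ofReal, sq_abs] at h2
      linarith
    have h3 := h1 (-r / (Q + 1))
    have hQ1 : 0 < Q + 1 := by linarith
    have h4 : 2 * (-r / (Q + 1)) * r + (-r / (Q + 1)) ^ 2 * Q =
        -(r ^ 2 * (Q + 2)) / (Q + 1) ^ 2 := by
      field_simp
      ring
    rw [h4] at h3
    have h5 : 0 < r ^ 2 * (Q + 2) / (Q + 1) ^ 2 := by positivity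
    have h6 : -(r ^ 2 * (Q + 2)) / (Q + 1) ^ 2 = -(r ^ 2 * (Q + 2) / (Q + 1) ^ 2) := by ring
    rw [h6] at h3
    linarith
  have hz : shiftB B J E w v = 0 := by
    set z := shiftB B J E w v with hz
    have h1 := hre ((starRingEnd 𝕜) z • v)
    rw [map_smul, smul_eq_mul, ← hz, RCLike.conj_mul] at h1
    have h2 : ‖z‖ ^ 2 = 0 := by
      have h3 : RCLike.re ((‖z‖ : 𝕜) ^ 2) = ‖z‖ ^ 2 := by
        rw [← RCLike.ofReal_pow, RCLike.ofReal_re]
      rw [h3] at h1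
      exact h1
    simpa using h2
  rw [shiftB_apply] at hz
  exact sub_eq_zero.1 hz

/-- the subspace of minimisers -/
def minSub (B : V →L⋆[𝕜] V →L[𝕜] 𝕜) (J : V →L[𝕜] H) (E : ℝ) : Submodule 𝕜 V where
  carrier := {w | ∀ v, B w v = (E : 𝕜) * inner 𝕜 (J w) (J v)}
  add_mem' := by
    intro u w hu hw v
    rw [map_add, add_apply, hu v, hw v, map_add, inner_add_left]
    ring
  zero_mem' := by intro v; simp
  smul_mem' := by
    intro c w hw v
    rw [map_smulₛₗ, smul_apply, hw v, map_smul, inner_smul_left, smul_eq_mul]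
    ring

theorem mem_minSub {w : V} : w ∈ minSub B J E ↔ ∀ v, B w v = (E : 𝕜) * inner 𝕜 (J w) (J v) :=
  Iff.rfl

theorem mem_minSub_iff (hB : Herm B) (hlow : ∀ u, E * ‖J u‖ ^ 2 ≤ qf B u) {w : V} :
    w ∈ minSub B J E ↔ qf B w = E * ‖J w‖ ^ 2 := by
  refine ⟨fun h => ?_, fun h => euler_lagrange hB hlow h⟩
  have := h w
  rw [qf, this, RCLike.re_ofReal_mul, inner_self_eq_norm_sq]

theorem isClosed_minSub : IsClosed (minSub B J E : Set V) := by
  have : (minSub B J E : Set V) = ⋂ v, {w | B w v = (E : 𝕜) * inner 𝕜 (J w) (J v)} := by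
    ext w; simp [mem_minSub]
  rw [this]
  refine isClosed_iInter fun v => isClosed_eq ?_ ?_
  · exact B.continuous.clm_apply continuous_const
  · exact continuous_const.mul (J.continuous.inner continuous_const)

/-- Spectral gap above the minimisers, on a closed subspace `W` meeting the minimisers only in
vectors with `J w = 0`. -/
theorem Data.gap [CompleteSpace V] [FiniteDimensional 𝕜 F] (D : Data B J L a)
    (hE : E < a) (hlow : ∀ u, E * ‖J u‖ ^ 2 ≤ qf B u) {W : Set V} (hW : IsClosed W)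
    (hWs : ∀ (c : 𝕜), ∀ w ∈ W, c • w ∈ W)
    (hWE : ∀ w ∈ W, qf B w = E * ‖J w‖ ^ 2 → J w = 0) :
    ∃ g > 0, ∀ w ∈ W, (E + g) * ‖J w‖ ^ 2 ≤ qf B w := by
  by_contra hcon
  push Not at hcon
  have hpos : ∀ n : ℕ, (0 : ℝ) < 1 / ((n : ℝ) + 1) := fun n => by positivity
  choose! f hfW hf using hcon
  -- normalise
  have hJ : ∀ g > 0, 0 < ‖J (f g)‖ := by
    intro g hg
    rcases (norm_nonneg (J (f g))).eq_or_lt with h | h
    · exfalso
      have h1 := hf g hg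
      have h2 := hlow (f g)
      rw [← h] at h1 h2
      simp at h1 h2
      linarith
    · exact h
  set u : ℕ → V := fun n => ((‖J (f (1 / ((n : ℝ) + 1)))‖⁻¹ : ℝ) : 𝕜) • f (1 / ((n : ℝ) + 1)) with hu
  have hu1 : ∀ n, ‖J (u n)‖ = 1 := by
    intro n
    rw [hu]
    simp only [map_smul, norm_smul, RCLike.norm_ofReal]
    rw [abs_of_pos (inv_pos.2 (hJ _ (hpos n)))]
    exact inv_mul_cancel₀ (hJ _ (hpos n)).ne'
  have hu2 : ∀ n : ℕ, qf B (u n) < E + 1 / ((n : ℝ) + 1) := by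
    intro n
    rw [hu]
    simp only
    rw [qf_smul, RCLike.norm_ofReal, abs_of_pos (inv_pos.2 (hJ _ (hpos n))), inv_pow,
      ← div_eq_inv_mul, div_lt_iff₀ (by have := hJ _ (hpos n); positivity)]
    exact hf _ (hpos n)
  have huW : ∀ n, u n ∈ W := fun n => hWs _ _ (hfW _ (hpos n))
  obtain ⟨φ, w, hφ, hw, hq⟩ := D.precompact hE hlow u 1 (fun n => (hu1 n).le) (by
      refine squeeze_zero (g := fun n : ℕ => 1 / ((n : ℝ) + 1)) (fun n => ?_) (fun n => ?_)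
        tendsto_one_div_add_atTop_nhds_zero_nat
      · have := hlow (u n)
        linarith
      · have h1 := hu1 n
        have h2 := hu2 n
        rw [h1]
        linarith)
  have hwW : w ∈ W := hW.mem_of_tendsto hw (Eventually.of_forall fun n => huW _)
  have hn : ‖J w‖ = 1 := by
    have h1 : Tendsto (fun n => ‖J (u (φ n))‖) atTop (𝓝 ‖J w‖) :=
      ((J.continuous.norm).tendsto w).comp hw
    have h2 : (fun n => ‖J (u (φ n))‖) = fun _ => 1 := by
      funext n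
      exact hu1 _
    rw [h2] at h1
    exact (tendsto_nhds_unique h1 tendsto_const_nhds)
  rw [hWE w hwW hq, norm_zero] at hn
  exact zero_ne_one hn

end

end Vale.Agent.P363.H382.Abs
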