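import Vale.Agent.P363.H382.Slice
import Vale.Agent.P363.R2.h518.ONB

/-! Contractions of weakly differentiable functions on `R3 × Conf n`, slices of functions on
`Conf (n + 1)`. -/

namespace Vale.Agent.P363.H382

open MeasureTheory Filter Topology Stmt R.Sob H518
open scoped ContDiff ENNReal ComplexConjugate

noncomputable section

set_option linter.unusedSectionVars false

section prod

variable {E₁ : Type*} [NormedAddCommGroup E₁] [NormedSpace ℝ E₁] [FiniteDimensional ℝ E₁]
  [MeasurableSpace E₁] [BorelSpace E₁]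
variable {E₂ : Type*} [NormedAddCommGroup E₂] [NormedSpace ℝ E₂] [FiniteDimensional ℝ E₂]
  [MeasurableSpace E₂] [BorelSpace E₂]
variable {μ : Measure E₁} [μ.IsAddHaarMeasure] {ν : Measure E₂} [ν.IsAddHaarMeasure]

theorem isWD_swap {F : Type*} [NormedAddCommGroup F] [NormedSpace ℝ F] {f g : E₁ × E₂ → F}
    {v : E₁} {w : E₂} (h : IsWD (μ.prod ν) (v, w) f g) :
    IsWD (ν.prod μ) (w, v) (fun p => f p.swap) (fun p => g p.swap) := by
  have hA : MeasurePreserving (ContinuousLinearEquiv.prodComm ℝ E₂ E₁) (ν.prod μ) (μ.prod ν) :=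
    Measure.measurePreserving_swap
  exact isWD_comp_equiv (ContinuousLinearEquiv.prodComm ℝ E₂ E₁) hA (v := (w, v)) h

/-- slices, second variable fixed. -/
theorem ae_slice_isWD' {F : Type*} [NormedAddCommGroup F] [NormedSpace ℝ F] [CompleteSpace F]
    {f g : E₁ × E₂ → F} {v : E₁} (hf : MemLp f 2 (μ.prod ν))
    (hg : MemLp g 2 (μ.prod ν)) (h : IsWD (μ.prod ν) (v, (0 : E₂)) f g) :
    ∀ᵐ y ∂ν, IsWD μ v (fun x => f (x, y)) (fun x => g (x, y)) :=
  ae_slice_isWD (μ := ν) (ν := μ) (f := fun p => f p.swap) (g := fun p => g p.swap)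
    (hf.comp_measurePreserving Measure.measurePreserving_swap)
    (hg.comp_measurePreserving Measure.measurePreserving_swap) (isWD_swap h)

/-- the contraction of a weakly differentiable function is weakly differentiable. -/
theorem isWD_pcoef {f g : E₁ × E₂ → ℂ} {w : E₂ → ℂ} {v : E₁} (hf : MemLp f 2 (μ.prod ν))
    (hg : MemLp g 2 (μ.prod ν)) (hw : MemLp w 2 ν) (h : IsWD (μ.prod ν) (v, (0 : E₂)) f g) :
    IsWD μ v (pcoef ν w f) (pcoef ν w g) := by
  intro φ hφ
  have hI : ∀ {ψ : E₁ → ℝ} {F : E₁ × E₂ → ℂ}, Test ψ → MemLp F 2 (μ.prod ν) →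
      Integrable (fun p : E₁ × E₂ => (ψ p.1 : ℂ) * (conj (w p.2) * F p)) (μ.prod ν) := by
    intro ψ F hψ hF
    have h1 := memLp_mul_prod (hψ.memLp (μ := μ) 2).ofReal (memLp_conj hw)
    have h2 := h1.integrable_mul hF
    refine h2.congr (ae_of_all _ fun p => ?_)
    simp [mul_assoc]
  have key : ∀ {ψ : E₁ → ℝ} {F : E₁ × E₂ → ℂ}, Test ψ → MemLp F 2 (μ.prod ν) →
      ∫ x, ψ x • pcoef ν w F x ∂μ = ∫ y, conj (w y) * ∫ x, ψ x • F (x, y) ∂μ ∂ν := by
    intro ψ F hψ hF
    have h1 := integral_prod _ (hI hψ hF)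
    have h2 := integral_prod_symm _ (hI hψ hF)
    rw [h1] at h2
    calc ∫ x, ψ x • pcoef ν w F x ∂μ = ∫ x, ∫ y, (ψ x : ℂ) * (conj (w y) * F (x, y)) ∂ν ∂μ := by
          congr 1
          funext x
          rw [integral_const_mul, Complex.real_smul]
          rfl
      _ = ∫ y, ∫ x, (ψ x : ℂ) * (conj (w y) * F (x, y)) ∂μ ∂ν := h2
      _ = _ := by
          congr 1
          funext y
          rw [← integral_const_mul]
          congr 1
          funext x
          rw [Complex.real_smul]
          ring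
  rw [key (hφ.fderiv v) hf, key hφ hg, ← integral_neg]
  refine integral_congr_ae ?_
  filter_upwards [ae_slice_isWD' hf hg h] with y hy
  rw [hy φ hφ]
  ring

/-- contraction in the first variable. -/
def pcoefL (μ : Measure E₁) (u : E₁ → ℂ) (f : E₁ × E₂ → ℂ) (y : E₂) : ℂ :=
  ∫ x, conj (u x) * f (x, y) ∂μ

theorem pcoefL_eq (u : E₁ → ℂ) (f : E₁ × E₂ → ℂ) :
    pcoefL μ u f = pcoef μ u (fun p : E₂ × E₁ => f p.swap) := rfl

theorem memLp_pcoefL {u : E₁ → ℂ} {f : E₁ × E₂ → ℂ} (hu : MemLp u 2 μ)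
    (hf : MemLp f 2 (μ.prod ν)) : MemLp (pcoefL μ u f) 2 ν :=
  memLp_pcoef (μ := ν) (ν := μ) hu
    (hf.comp_measurePreserving Measure.measurePreserving_swap)

theorem isWD_pcoefL {f g : E₁ × E₂ → ℂ} {u : E₁ → ℂ} {v : E₂} (hf : MemLp f 2 (μ.prod ν))
    (hg : MemLp g 2 (μ.prod ν)) (hu : MemLp u 2 μ) (h : IsWD (μ.prod ν) ((0 : E₁), v) f g) :
    IsWD ν v (pcoefL μ u f) (pcoefL μ u g) :=
  isWD_pcoef (μ := ν) (ν := μ) (hf.comp_measurePreserving Measure.measurePreserving_swap)
    (hg.comp_measurePreserving Measure.measurePreserving_swap) hu (isWD_swap h)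

end prod

/-! ### `Conf (n + 1)` as `R3 × Conf n` -/

section conf

variable {n : ℕ} {F : Type*} [NormedAddCommGroup F] [NormedSpace ℝ F]

/-- a function on `Conf (n + 1)` as function on `R3 × Conf n`. -/
def unc (f : Conf (n + 1) → F) (p : R3 × Conf n) : F := f (Fin.cons p.1 p.2)

theorem unc_eq (f : Conf (n + 1) → F) : unc f = fun p => f (consE p) := rfl

theorem memLp_unc {p : ℝ≥0∞} {f : Conf (n + 1) → F} (hf : MemLp f p volume) :
    MemLp (unc f) p (volume : Measure (R3 × Conf n)) :=
  hf.comp_measurePreserving consE_mp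

theorem memLp_unc_iff {p : ℝ≥0∞} {f : Conf (n + 1) → F} :
    MemLp (unc f) p (volume : Measure (R3 × Conf n)) ↔ MemLp f p volume :=
  ⟨fun h => by
    have h1 := h.comp_measurePreserving
      (MeasurePreserving.symm consE.toHomeomorph.toMeasurableEquiv (consE_mp (n := n)))
    refine (memLp_congr_ae (Eventually.of_forall fun x => ?_)).1 h1
    exact congrArg f (consE.apply_symm_apply x), memLp_unc⟩

theorem integral_unc (f : Conf (n + 1) → F) : ∫ p : R3 × Conf n, unc f p = ∫ x, f x :=
  integral_comp_equiv consE consE_mp f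

theorem integrable_unc_iff {f : Conf (n + 1) → F} :
    Integrable (unc f) (volume : Measure (R3 × Conf n)) ↔ Integrable f volume :=
  consE_mp.integrable_comp_emb consE.toHomeomorph.measurableEmbedding

theorem consE_dir_zero (k : Fin 3) : consE ((e3 k, 0) : R3 × Conf n) = dir 0 k := by
  funext i
  refine Fin.cases ?_ (fun j => ?_) i
  · simp [dir]
  · simp [dir]

theorem consE_dir_succ (i : Fin n) (k : Fin 3) :
    consE ((0, dir i k) : R3 × Conf n) = dir i.succ k := by
  funext j
  refine Fin.cases ?_ (fun l => ?_) j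
  · simp [dir, (Fin.succ_ne_zero i).symm]
  · simp [dir, Pi.single_apply, Fin.succ_inj]

theorem isWD_unc_zero {k : Fin 3} {f g : Conf (n + 1) → F} (h : IsWD volume (dir 0 k) f g) :
    IsWD (volume : Measure (R3 × Conf n)) (e3 k, 0) (unc f) (unc g) := by
  rw [← consE_dir_zero] at h
  exact isWD_comp_equiv consE consE_mp h

theorem isWD_unc_succ {i : Fin n} {k : Fin 3} {f g : Conf (n + 1) → F}
    (h : IsWD volume (dir i.succ k) f g) :
    IsWD (volume : Measure (R3 × Conf n)) (0, dir i k) (unc f) (unc g) := by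
  rw [← consE_dir_succ] at h
  exact isWD_comp_equiv consE consE_mp h

/-- slices of the first electron -/
theorem ae_slice_first [CompleteSpace F] {k : Fin 3} {f g : Conf (n + 1) → F}
    (hf : MemLp f 2 volume) (hg : MemLp g 2 volume) (h : IsWD volume (dir 0 k) f g) :
    ∀ᵐ y : Conf n, IsWD volume (e3 k) (fun x : R3 => f (Fin.cons x y))
      (fun x => g (Fin.cons x y)) :=
  ae_slice_isWD' (μ := (volume : Measure R3)) (ν := (volume : Measure (Conf n)))
    (memLp_unc hf) (memLp_unc hg) (isWD_unc_zero h)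

/-- slices of the other electrons, the first being fixed. -/
theorem ae_slice_rest [CompleteSpace F] {i : Fin n} {k : Fin 3} {f g : Conf (n + 1) → F}
    (hf : MemLp f 2 volume) (hg : MemLp g 2 volume) (h : IsWD volume (dir i.succ k) f g) :
    ∀ᵐ x : R3, IsWD volume (dir i k) (fun y : Conf n => f (Fin.cons x y))
      (fun y => g (Fin.cons x y)) :=
  ae_slice_isWD (μ := (volume : Measure R3)) (ν := (volume : Measure (Conf n)))
    (memLp_unc hf) (memLp_unc hg) (isWD_unc_succ h)

theorem ae_memLp_first [CompleteSpace F] {f : Conf (n + 1) → F} (hf : MemLp f 2 volume) :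
    ∀ᵐ y : Conf n, MemLp (fun x : R3 => f (Fin.cons x y)) 2 volume :=
  ae_slice_memLp (μ := (volume : Measure (Conf n))) (ν := (volume : Measure R3))
    (f := fun p => unc f p.swap)
    ((memLp_unc hf).comp_measurePreserving Measure.measurePreserving_swap)

theorem ae_memLp_rest [CompleteSpace F] {f : Conf (n + 1) → F} (hf : MemLp f 2 volume) :
    ∀ᵐ x : R3, MemLp (fun y : Conf n => f (Fin.cons x y)) 2 volume :=
  ae_slice_memLp (μ := (volume : Measure R3)) (ν := (volume : Measure (Conf n)))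
    (f := unc f) (memLp_unc hf)

end conf

/-! ### contractions on `Conf (n + 1)` -/

section contr

variable {n : ℕ}

/-- contraction with a function of the last `n` electrons. -/
def contr (g : Conf n → ℂ) (f : Conf (n + 1) → ℂ) (x : R3) : ℂ :=
  ∫ y : Conf n, conj (g y) * f (Fin.cons x y)

/-- contraction with a function of the first electron. -/
def contrL (u : R3 → ℂ) (f : Conf (n + 1) → ℂ) (y : Conf n) : ℂ :=
  ∫ x : R3, conj (u x) * f (Fin.cons x y)

theorem memLp_contr {g : Conf n → ℂ} {f : Conf (n + 1) → ℂ} (hg : MemLp g 2 volume)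
    (hf : MemLp f 2 volume) : MemLp (contr g f) 2 volume :=
  memLp_pcoef (μ := (volume : Measure R3)) (ν := (volume : Measure (Conf n))) hg (memLp_unc hf)

theorem memLp_contrL {u : R3 → ℂ} {f : Conf (n + 1) → ℂ} (hu : MemLp u 2 volume)
    (hf : MemLp f 2 volume) : MemLp (contrL u f) 2 volume :=
  memLp_pcoefL (μ := (volume : Measure R3)) (ν := (volume : Measure (Conf n))) hu (memLp_unc hf)

theorem isWD_contr {g : Conf n → ℂ} {f f' : Conf (n + 1) → ℂ} {k : Fin 3} (hg : MemLp g 2 volume)
    (hf : MemLp f 2 volume) (hf' : MemLp f' 2 volume) (h : IsWD volume (dir 0 k) f f') :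
    IsWD volume (e3 k) (contr g f) (contr g f') :=
  isWD_pcoef (μ := (volume : Measure R3)) (ν := (volume : Measure (Conf n)))
    (memLp_unc hf) (memLp_unc hf') hg (isWD_unc_zero h)

theorem isWD_contrL {u : R3 → ℂ} {f f' : Conf (n + 1) → ℂ} {i : Fin n} {k : Fin 3}
    (hu : MemLp u 2 volume) (hf : MemLp f 2 volume) (hf' : MemLp f' 2 volume)
    (h : IsWD volume (dir i.succ k) f f') :
    IsWD volume (dir i k) (contrL u f) (contrL u f') :=
  isWD_pcoefL (μ := (volume : Measure R3)) (ν := (volume : Measure (Conf n)))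
    (memLp_unc hf) (memLp_unc hf') hu (isWD_unc_succ h)

end contr

end

end Vale.Agent.P363.H382
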