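import Vale.Agent.P363.R.Sob.Basic

/-! Bridge between `Stmt` and the Sobolev toolkit: measures, directions, measure preserving
linear changes of variables. -/

namespace Vale.Agent.P363.H382

open MeasureTheory Filter Topology Stmt R.Sob
open scoped ContDiff ENNReal

noncomputable section

set_option linter.unusedSectionVars false

/-! ### `Stmt` integrals are the standard ones -/

theorem intR_eq {N : ℕ} (f : Conf N → ℝ) : intR f = ∫ x, f x := rfl

theorem intC_eq {N : ℕ} (f : Conf N → ℂ) : intC f = ∫ x, f x := rfl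

theorem L2_iff {N : ℕ} {f : Conf N → ℂ} : L2 f ↔ MemLp f 2 volume := Iff.rfl

theorem AEConf_iff {N : ℕ} {P : Conf N → Prop} : AEConf P ↔ ∀ᵐ x, P x := Iff.rfl

theorem AE3_iff {P : R3 → Prop} : AE3 P ↔ ∀ᵐ x, P x := Iff.rfl

/-- spin configurations -/
abbrev Spn (N : ℕ) : Type := Fin N → Fin 2

/-- coordinate direction of `R3`. -/
def e3 (k : Fin 3) : R3 := EuclideanSpace.single k 1

/-- coordinate direction `(i,k)` of `Conf N`. -/
def dir {N : ℕ} (i : Fin N) (k : Fin 3) : Conf N := Pi.single i (e3 k)

theorem update_add_smul {N : ℕ} (x : Conf N) (i : Fin N) (k : Fin 3) (t : ℝ) :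
    Function.update x i (x i + t • EuclideanSpace.single k 1) = x + t • dir i k := by
  funext j
  by_cases h : j = i
  · subst h
    simp [dir, e3]
  · simp [dir, h]

theorem pd_eq_lineDeriv {N : ℕ} (i : Fin N) (k : Fin 3) (φ : Conf N → ℝ) (x : Conf N) :
    pd i k φ x = lineDeriv ℝ φ x (dir i k) := by
  simp only [pd, lineDeriv, update_add_smul]

theorem pd_eq {N : ℕ} (i : Fin N) (k : Fin 3) {φ : Conf N → ℝ} (hφ : Test φ) (x : Conf N) :
    pd i k φ x = fderiv ℝ φ x (dir i k) := by
  rw [pd_eq_lineDeriv]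
  exact (hφ.differentiable x).lineDeriv_eq_fderiv

theorem isTest_iff {N : ℕ} {φ : Conf N → ℝ} : IsTest φ ↔ Test φ := Iff.rfl

/-- S15 -/
theorem isWeakDeriv_iff {N : ℕ} {i : Fin N} {k : Fin 3} {f g : Conf N → ℂ} :
    IsWeakDeriv i k f g ↔ IsWD volume (dir i k) f g := by
  unfold IsWeakDeriv IsWD
  refine forall_congr' fun φ => ?_
  refine forall_congr' fun hφ => ?_
  simp only [intC_eq, pd_eq i k hφ, Complex.real_smul]

/-! ### change of variables -/

variable {E E' : Type*} [NormedAddCommGroup E] [NormedSpace ℝ E] [FiniteDimensional ℝ E]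
  [MeasurableSpace E] [BorelSpace E]
  [NormedAddCommGroup E'] [NormedSpace ℝ E'] [FiniteDimensional ℝ E']
  [MeasurableSpace E'] [BorelSpace E']
variable {F : Type*} [NormedAddCommGroup F] [NormedSpace ℝ F]

theorem test_comp_equiv {φ : E' → ℝ} (h : Test φ) (A : E ≃L[ℝ] E') :
    Test (fun x => φ (A x)) :=
  ⟨h.1.comp A.contDiff, h.2.comp_homeomorph A.toHomeomorph⟩

theorem integral_comp_equiv {μ : Measure E} {μ' : Measure E'} (A : E ≃L[ℝ] E')
    (hA : MeasurePreserving A μ μ') (f : E' → F) : ∫ x, f (A x) ∂μ = ∫ y, f y ∂μ' :=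
  hA.integral_comp A.toHomeomorph.measurableEmbedding f

theorem isWD_comp_equiv {μ : Measure E} {μ' : Measure E'} (A : E ≃L[ℝ] E')
    (hA : MeasurePreserving A μ μ') {v : E} {f g : E' → F} (h : IsWD μ' (A v) f g) :
    IsWD μ v (fun x => f (A x)) (fun x => g (A x)) := by
  intro φ hφ
  have hφ' : Test (fun y => φ (A.symm y)) := test_comp_equiv hφ A.symm
  have key := h _ hφ'
  rw [← integral_comp_equiv A hA, ← integral_comp_equiv A hA] at key
  simp only [ContinuousLinearEquiv.symm_apply_apply] at key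
  rw [← key]
  congr 1
  funext x
  congr 1
  have h1 : HasFDerivAt (fun y => φ (A.symm y)) ((fderiv ℝ φ x).comp (A.symm : E' →L[ℝ] E)) (A x) := by
    have h2 : HasFDerivAt φ (fderiv ℝ φ x) (A.symm (A x)) := by
      rw [A.symm_apply_apply]
      exact (hφ.differentiable x).hasFDerivAt
    exact h2.comp (A x) A.symm.hasFDerivAt
  rw [h1.fderiv]
  simp

theorem isWD_comp_equiv_iff {μ : Measure E} {μ' : Measure E'} (A : E ≃L[ℝ] E')
    (hA : MeasurePreserving A μ μ') {v : E} {f g : E' → F} :
    IsWD μ v (fun x => f (A x)) (fun x => g (A x)) ↔ IsWD μ' (A v) f g := by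
  refine ⟨fun h => ?_, fun h => isWD_comp_equiv A hA h⟩
  have hA' : MeasurePreserving A.symm μ' μ :=
    MeasurePreserving.symm A.toHomeomorph.toMeasurableEquiv hA
  have h' : IsWD μ (A.symm (A v)) (fun x => f (A x)) (fun x => g (A x)) := by
    rwa [A.symm_apply_apply]
  have := isWD_comp_equiv A.symm hA' h'
  simpa using this

/-! ### permutations of the electrons -/

/-- `x ↦ x ∘ σ`. -/
def permE {N : ℕ} (σ : Equiv.Perm (Fin N)) : Conf N ≃L[ℝ] Conf N where
  toFun x := x ∘ σ
  invFun x := x ∘ σ.symm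
  map_add' _ _ := rfl
  map_smul' _ _ := rfl
  left_inv x := by funext i; simp
  right_inv x := by funext i; simp
  continuous_toFun := by fun_prop
  continuous_invFun := by fun_prop

@[simp] theorem permE_apply {N : ℕ} (σ : Equiv.Perm (Fin N)) (x : Conf N) : permE σ x = x ∘ σ := rfl

theorem permE_mp {N : ℕ} (σ : Equiv.Perm (Fin N)) :
    MeasurePreserving (permE σ : Conf N → Conf N) volume volume := by
  have := volume_measurePreserving_piCongrLeft (fun _ : Fin N => R3) σ.symm
  convert this using 1
  funext x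
  funext i
  simp [permE, MeasurableEquiv.coe_piCongrLeft, Equiv.piCongrLeft_apply]

theorem dir_comp {N : ℕ} (σ : Equiv.Perm (Fin N)) (i : Fin N) (k : Fin 3) :
    permE σ (dir i k) = dir (σ.symm i) k := by
  funext j
  by_cases h : σ j = i
  · have h' : j = σ.symm i := by simp [← h]
    subst h'
    simp [dir]
  · have h' : j ≠ σ.symm i := fun hh => h (by simp [hh])
    simp [dir, h, h']

/-! ### splitting off the first electron -/

/-- `(r, y) ↦ Fin.cons r y`. -/
def consE {n : ℕ} : (R3 × Conf n) ≃L[ℝ] Conf (n + 1) where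
  toFun p := Fin.cons p.1 p.2
  invFun x := (x 0, fun i => x i.succ)
  map_add' p q := by
    funext i
    refine Fin.cases ?_ (fun j => ?_) i <;> simp
  map_smul' c p := by
    funext i
    refine Fin.cases ?_ (fun j => ?_) i <;> simp
  left_inv p := by simp
  right_inv x := by
    funext i
    refine Fin.cases ?_ (fun j => ?_) i <;> simp
  continuous_toFun := by
    refine continuous_pi fun i => ?_
    refine Fin.cases ?_ (fun j => ?_) i
    · simpa using continuous_fst
    · exact (continuous_apply j).comp continuous_snd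
  continuous_invFun := by fun_prop

@[simp] theorem consE_apply {n : ℕ} (p : R3 × Conf n) : consE p = Fin.cons p.1 p.2 := rfl

theorem consE_mp {n : ℕ} :
    MeasurePreserving (consE : R3 × Conf n → Conf (n + 1)) volume volume := by
  have h := volume_preserving_piFinSuccAbove (fun _ : Fin (n + 1) => R3) 0
  have h' := MeasurePreserving.symm _ h
  have e : (consE : R3 × Conf n → Conf (n + 1)) =
      (MeasurableEquiv.piFinSuccAbove (fun _ : Fin (n + 1) => R3) 0).symm := by
    funext p i
    refine Fin.cases ?_ (fun j => ?_) i <;> simp [MeasurableEquiv.piFinSuccAbove]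
  rw [e]
  exact h'

end

end Vale.Agent.P363.H382
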