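import Vale.Agent.P363.H382.Forms
import Vale.Agent.P363.R.Sob.S16
import Vale.Agent.P363.R.Top.Defs

/-! Infinitesimal form-boundedness of Coulomb potentials on `HS N`, Garding inequality. -/

namespace Vale.Agent.P363.H382

open MeasureTheory Filter Topology Stmt R.Sob R.Top
open scoped ContDiff ENNReal ComplexConjugate

noncomputable section

set_option linter.unusedSectionVars false

variable {N : ℕ}

/-- infinitesimal form-boundedness -/
structure FBd0 (w : Conf N → ℝ) : Prop where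
  meas : AEStronglyMeasurable w volume
  int : ∀ u : HS N, ∀ s, Integrable (fun x => |w x| * ‖u.1 (s, none) x‖ ^ 2)
  bound : ∀ ε > 0, ∃ C : ℝ, 0 ≤ C ∧ ∀ u : HS N,
    ∑ s, ∫ x, |w x| * ‖u.1 (s, none) x‖ ^ 2 ≤ ε * kin u.1 + C * ‖amH u‖ ^ 2

theorem kin_nonneg (u : Amb N) : 0 ≤ kin u := by unfold kin; positivity

theorem kin_le (u : HS N) : kin u.1 ≤ ‖u‖ ^ 2 := by
  have := norm_sq_eq u.1
  have h : ‖u‖ ^ 2 = ‖u.1‖ ^ 2 := rfl
  rw [h, this]
  have : 0 ≤ ‖am u.1‖ ^ 2 := by positivity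
  linarith

theorem amH_le (u : HS N) : ‖amH u‖ ^ 2 ≤ ‖u‖ ^ 2 := by
  have := norm_sq_eq u.1
  have h : ‖u‖ ^ 2 = ‖u.1‖ ^ 2 := rfl
  have h' : ‖amH u‖ ^ 2 = ‖am u.1‖ ^ 2 := rfl
  rw [h, h', this]
  have := kin_nonneg u.1
  linarith

theorem norm_sq_HS (u : HS N) : ‖u‖ ^ 2 = ‖amH u‖ ^ 2 + kin u.1 := norm_sq_eq u.1

theorem norm_sq_FS (u : FS N) : ‖u‖ ^ 2 = ‖amF u‖ ^ 2 + kin u.1 := norm_sq_eq u.1

theorem FBd0.fbd {w : Conf N → ℝ} (hw : FBd0 w) : FBd w where
  meas := hw.meas
  int := hw.int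
  bound := by
    obtain ⟨C, hC, h⟩ := hw.bound 1 one_pos
    refine ⟨1 + C, by positivity, fun u => (h u).trans ?_⟩
    have h1 := norm_sq_HS u
    have h2 := kin_nonneg u.1
    have h3 : 0 ≤ ‖amH u‖ ^ 2 := by positivity
    rw [h1]
    nlinarith

theorem FBd0.congr {w w' : Conf N → ℝ} (hw : FBd0 w) (h : ∀ x, w x = w' x) : FBd0 w' := by
  have : w = w' := funext h
  rwa [← this]

theorem FBd0.add {w w' : Conf N → ℝ} (hw : FBd0 w) (hw' : FBd0 w') :
    FBd0 (fun x => w x + w' x) where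
  meas := hw.meas.add hw'.meas
  int u s := by
    refine ((hw.int u s).add (hw'.int u s)).mono'
      (((hw.meas.add hw'.meas).norm).mul ((Lp.aestronglyMeasurable _).norm.pow 2))
      (Eventually.of_forall fun x => ?_)
    rw [Real.norm_eq_abs, abs_of_nonneg (by positivity)]
    simp only [Pi.add_apply]
    rw [← add_mul]
    exact mul_le_mul_of_nonneg_right (abs_add_le _ _) (sq_nonneg _)
  bound ε hε := by
    obtain ⟨C, hC, h⟩ := hw.bound (ε / 2) (by positivity)
    obtain ⟨C', hC', h'⟩ := hw'.bound (ε / 2) (by positivity)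
    refine ⟨C + C', by positivity, fun u => ?_⟩
    calc ∑ s, ∫ x, |w x + w' x| * ‖u.1 (s, none) x‖ ^ 2
        ≤ ∑ s, ((∫ x, |w x| * ‖u.1 (s, none) x‖ ^ 2) + ∫ x, |w' x| * ‖u.1 (s, none) x‖ ^ 2) := by
          refine Finset.sum_le_sum fun s _ => ?_
          rw [← integral_add (hw.int u s) (hw'.int u s)]
          refine integral_mono_of_nonneg (Eventually.of_forall fun x => by positivity)
            ((hw.int u s).add (hw'.int u s)) (Eventually.of_forall fun x => ?_)
          simp only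
          rw [← add_mul]
          exact mul_le_mul_of_nonneg_right (abs_add_le _ _) (sq_nonneg _)
      _ = (∑ s, ∫ x, |w x| * ‖u.1 (s, none) x‖ ^ 2) +
            ∑ s, ∫ x, |w' x| * ‖u.1 (s, none) x‖ ^ 2 := Finset.sum_add_distrib
      _ ≤ _ := by
          have a1 := h u
          have a2 := h' u
          nlinarith

theorem FBd0.const_mul {w : Conf N → ℝ} (hw : FBd0 w) (c : ℝ) : FBd0 (fun x => c * w x) where
  meas := hw.meas.const_mul c
  int u s := by
    have := (hw.int u s).const_mul |c|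
    refine this.congr (Eventually.of_forall fun x => ?_)
    simp only [abs_mul]
    ring
  bound ε hε := by
    obtain ⟨C, hC, h⟩ := hw.bound (ε / (|c| + 1)) (by positivity)
    refine ⟨|c| * C, by positivity, fun u => ?_⟩
    have e : ∀ s : Spn N, ∫ x, |c * w x| * ‖u.1 (s, none) x‖ ^ 2 =
        |c| * ∫ x, |w x| * ‖u.1 (s, none) x‖ ^ 2 := by
      intro s
      rw [← integral_const_mul]
      congr 1
      funext x
      rw [abs_mul]
      ring
    rw [Finset.sum_congr rfl fun s _ => e s, ← Finset.mul_sum]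
    have h1 := mul_le_mul_of_nonneg_left (h u) (abs_nonneg c)
    refine h1.trans ?_
    have h2 : |c| * (ε / (|c| + 1)) ≤ ε := by
      rw [mul_div_assoc', div_le_iff₀ (by positivity)]
      nlinarith [abs_nonneg c]
    have h3 := mul_le_mul_of_nonneg_right h2 (kin_nonneg u.1)
    nlinarith

theorem fbd0_zero : FBd0 (fun _ : Conf N => (0 : ℝ)) where
  meas := aestronglyMeasurable_const
  int u s := by simp
  bound ε hε := ⟨0, le_rfl, fun u => by
    have := kin_nonneg u.1
    simp only [abs_zero, zero_mul, integral_zero, Finset.sum_const_zero]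
    positivity⟩

theorem FBd0.sum {ι : Type*} (S : Finset ι) {w : ι → Conf N → ℝ} (hw : ∀ i ∈ S, FBd0 (w i)) :
    FBd0 (fun x => ∑ i ∈ S, w i x) := by
  classical
  induction S using Finset.induction_on with
  | empty => simpa using fbd0_zero
  | insert a S ha ih =>
    have h1 := hw a (Finset.mem_insert_self a S)
    have h2 := ih fun i hi => hw i (Finset.mem_insert_of_mem hi)
    refine (h1.add h2).congr fun x => ?_
    rw [Finset.sum_insert ha]

/-- a potential controlled by the Hardy inequality. -/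
theorem fbd0_hardy (p : Conf N →L[ℝ] R3) (a : R3) (i : Fin N)
    (hb : ∀ k, p (dir i k) = EuclideanSpace.single k 1) : FBd0 (fun x => 1 / ‖p x - a‖) where
  meas := by
    have hm : Measurable (fun x : Conf N => (‖p x - a‖)⁻¹) :=
      (by fun_prop : Continuous (fun x : Conf N => ‖p x - a‖)).measurable.inv
    simpa [one_div] using hm.aestronglyMeasurable
  int u s := by
    have h := (coulomb_le p a (fun k => dir i k) hb (Lp.memLp (u.1 (s, none)))
      (fun k => Lp.memLp (u.1 (s, some (i, k)))) (fun k => u.2 s i k)).1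
    refine h.congr (Eventually.of_forall fun x => ?_)
    simp only
    rw [abs_of_nonneg (by positivity)]
    ring
  bound ε hε := by
    refine ⟨1 / ε, by positivity, fun u => ?_⟩
    have h : ∀ s : Spn N, ∫ x, |1 / ‖p x - a‖| * ‖u.1 (s, none) x‖ ^ 2 ≤
        ε * (∑ k, ‖u.1 (s, some (i, k))‖ ^ 2) + (1 / ε) * ‖u.1 (s, none)‖ ^ 2 := by
      intro s
      have h := (coulomb_le p a (fun k => dir i k) hb (Lp.memLp (u.1 (s, none)))
        (fun k => Lp.memLp (u.1 (s, some (i, k)))) (fun k => u.2 s i k)).2 ε hε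
      rw [norm_Lp_sq (u.1 (s, none)), Finset.sum_congr rfl fun k _ => norm_Lp_sq (u.1 (s, some (i, k)))]
      refine le_trans (le_of_eq ?_) h
      congr 1
      funext x
      rw [abs_of_nonneg (by positivity)]
      ring
    refine (Finset.sum_le_sum fun s _ => h s).trans ?_
    rw [Finset.sum_add_distrib, ← Finset.mul_sum, ← Finset.mul_sum]
    have h1 : ‖amH u‖ ^ 2 = ∑ s, ‖u.1 (s, none)‖ ^ 2 := norm_am_sq u.1
    rw [h1]
    have h2 : ∑ s, ∑ k, ‖u.1 (s, some (i, k))‖ ^ 2 ≤ kin u.1 := by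
      unfold kin
      refine Finset.sum_le_sum fun s _ => ?_
      exact Finset.single_le_sum (f := fun i => ∑ k, ‖u.1 (s, some (i, k))‖ ^ 2)
        (fun i _ => by positivity) (Finset.mem_univ i)
    nlinarith

theorem fbd0_nuc (i : Fin N) (a : R3) : FBd0 (fun x : Conf N => 1 / ‖x i - a‖) :=
  (fbd0_hardy (ContinuousLinearMap.proj i) a i (by intro k; simp [dir, e3])).congr fun _ => rfl

theorem fbd0_nuc0 (i : Fin N) : FBd0 (fun x : Conf N => 1 / ‖x i‖) :=
  (fbd0_nuc i 0).congr fun x => by rw [sub_zero]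

theorem fbd0_pair (i j : Fin N) (hij : i ≠ j) : FBd0 (fun x : Conf N => 1 / ‖x i - x j‖) := by
  refine (fbd0_hardy ((ContinuousLinearMap.proj i : Conf N →L[ℝ] R3) -
    ContinuousLinearMap.proj j) 0 i ?_).congr fun x => ?_
  · intro k
    simp [dir, e3, hij.symm]
  · simp

theorem fbd0_rep : FBd0 (rep : Conf N → ℝ) := by
  unfold rep
  refine FBd0.sum _ fun i _ => FBd0.sum _ fun k hk => fbd0_pair i k ?_
  exact (Finset.mem_Ioi.1 hk).ne

theorem fbd0_pot (lam : ℝ) : FBd0 (pot lam : Conf N → ℝ) := by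
  have h1 : FBd0 (fun x : Conf N => ∑ i, -(1 / ‖x i‖)) :=
    FBd0.sum _ fun i _ => ((fbd0_nuc0 i).const_mul (-1)).congr fun x => by ring
  exact (h1.add (fbd0_rep.const_mul lam)).congr fun x => rfl

theorem fbd0_coulomb {M : ℕ} (Z : Fin M → ℕ) (R : Fin M → R3) :
    FBd0 (coulombPotential Z R : Conf N → ℝ) := by
  have h1 : FBd0 (fun x : Conf N => ∑ i, ∑ j, -((Z j : ℝ) / ‖x i - R j‖)) :=
    FBd0.sum _ fun i _ => FBd0.sum _ fun j _ =>
      ((fbd0_nuc i (R j)).const_mul (-(Z j : ℝ))).congr fun x => by ring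
  exact (h1.add fbd0_rep).congr fun x => rfl

/-- Garding inequality. -/
theorem FBd0.garding {w : Conf N → ℝ} (hw : FBd0 w) : ∃ C : ℝ, 0 ≤ C ∧ ∀ u : HS N,
    (1 / 4) * kin u.1 ≤ (1 / 2) * kin u.1 + (∑ s, ∫ x, w x * ‖u.1 (s, none) x‖ ^ 2) +
      C * ‖amH u‖ ^ 2 := by
  obtain ⟨C, hC, h⟩ := hw.bound (1 / 4) (by norm_num)
  refine ⟨C, hC, fun u => ?_⟩
  have h1 : -(∑ s, ∫ x, |w x| * ‖u.1 (s, none) x‖ ^ 2) ≤
      ∑ s, ∫ x, w x * ‖u.1 (s, none) x‖ ^ 2 := by
    rw [← Finset.sum_neg_distrib]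
    refine Finset.sum_le_sum fun s _ => ?_
    rw [← integral_neg]
    refine integral_mono (hw.int u s).neg (hw.fbd.int' u s) fun x => ?_
    simp only
    nlinarith [neg_abs_le (w x), sq_nonneg ‖u.1 (s, none) x‖]
  have h2 := h u
  linarith

/-- Garding inequality for the energy form. -/
theorem garding_formE {w : Conf N → ℝ} (hw : FBd0 w) : ∃ c C : ℝ, 0 < c ∧ 0 ≤ C ∧
    ∀ u : FS N, c * ‖u‖ ^ 2 ≤ Abs.qf (formE w hw.fbd) u + C * ‖amF u‖ ^ 2 := by
  obtain ⟨C, hC, h⟩ := hw.garding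
  refine ⟨1 / 4, C + 1 / 4, by norm_num, by positivity, fun u => ?_⟩
  have h1 := h (incl u)
  have h2 : Abs.qf (formE w hw.fbd) u =
      Abs.qf formT (incl u) + Abs.qf (formW w hw.fbd) (incl u) := by
    unfold Abs.qf
    rw [formE_apply, map_add]
    rfl
  rw [h2, formT_self, formW_self, norm_sq_FS]
  have h3 : ‖amH (incl u)‖ = ‖amF u‖ := rfl
  rw [h3] at h1
  simp only [incl_coe] at h1 ⊢
  linarith

end

end Vale.Agent.P363.H382
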