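import Vale.Agent.P363.H382.Conv

/-! The Hilbert space `FS N` of `N`-electron states of finite kinetic energy, and the bridge to
`Stmt.ElectronState`. -/

namespace Vale.Agent.P363.H382

open MeasureTheory Filter Topology Stmt R.Sob
open scoped ContDiff ENNReal

noncomputable section

set_option linter.unusedSectionVars false

section closed

variable {E : Type*} [NormedAddCommGroup E] [NormedSpace ℝ E] [FiniteDimensional ℝ E]
  [MeasurableSpace E] [BorelSpace E] {μ : Measure E} [μ.IsAddHaarMeasure]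

theorem Test_memLp {φ : E → ℝ} (h : Test φ) (p : ℝ≥0∞) : MemLp (fun x => (φ x : ℂ)) p μ := by
  have hc : Continuous (fun x => (φ x : ℂ)) := Complex.continuous_ofReal.comp h.continuous
  have hs : HasCompactSupport (fun x => (φ x : ℂ)) :=
    h.hasCompactSupport.comp_left (g := fun t : ℝ => (t : ℂ)) (by simp)
  exact hc.memLp_of_hasCompactSupport hs

theorem continuous_integral_test {φ : E → ℝ} (h : Test φ) :
    Continuous fun f : Lp ℂ 2 μ => ∫ x, φ x • f x ∂μ := by
  have : (fun f : Lp ℂ 2 μ => ∫ x, φ x • f x ∂μ) =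
      fun f : Lp ℂ 2 μ => inner ℂ ((Test_memLp (μ := μ) h 2).toLp _) f := by
    funext f
    rw [L2.inner_def]
    refine integral_congr_ae ?_
    filter_upwards [(Test_memLp (μ := μ) h 2).coeFn_toLp] with x hx
    rw [hx]
    simp [mul_comm]
  rw [this]
  exact continuous_const.inner continuous_id

theorem isClosed_isWD (v : E) : IsClosed {p : Lp ℂ 2 μ × Lp ℂ 2 μ | IsWD μ v p.1 p.2} := by
  have : {p : Lp ℂ 2 μ × Lp ℂ 2 μ | IsWD μ v p.1 p.2} =
      ⋂ (φ : E → ℝ) (_ : Test φ), {p : Lp ℂ 2 μ × Lp ℂ 2 μ |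
        ∫ x, (fderiv ℝ φ x v) • p.1 x ∂μ = - ∫ x, φ x • p.2 x ∂μ} := by
    ext p
    simp [IsWD]
  rw [this]
  refine isClosed_iInter fun φ => isClosed_iInter fun hφ => ?_
  exact isClosed_eq ((continuous_integral_test (hφ.fderiv v)).comp continuous_fst)
    ((continuous_integral_test hφ).comp continuous_snd).neg

end closed

/-! ### ambient Hilbert space -/

/-- index of a component: spin configuration, and amplitude or derivative. -/
abbrev Idx (N : ℕ) : Type := Spn N × Option (Fin N × Fin 3)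

/-- square integrable functions on `Conf N` -/
abbrev LC (N : ℕ) : Type := Lp ℂ 2 (volume : Measure (Conf N))

/-- ambient Hilbert space: amplitudes together with derivatives. -/
abbrev Amb (N : ℕ) : Type := PiLp 2 (fun _ : Idx N => LC N)

/-- the `L²` state space. -/
abbrev LS (N : ℕ) : Type := PiLp 2 (fun _ : Spn N => LC N)

/-- composition with a permutation on `LC N`. -/
def permL {N : ℕ} (σ : Equiv.Perm (Fin N)) : LC N →ₗᵢ[ℂ] LC N :=
  Lp.compMeasurePreservingₗᵢ ℂ (permE σ) (permE_mp σ)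

theorem permL_ae {N : ℕ} (σ : Equiv.Perm (Fin N)) (f : LC N) :
    permL σ f =ᵐ[volume] fun x => f (x ∘ σ) :=
  Lp.coeFn_compMeasurePreserving f (permE_mp σ)

/-- weakly differentiable elements, no symmetry. -/
def HSub (N : ℕ) : Submodule ℂ (Amb N) where
  carrier := {u | ∀ s i k, IsWD volume (dir i k) (u (s, none)) (u (s, some (i, k)))}
  add_mem' := by
    intro u v hu hv s i k
    have h := (hu s i k).add (hv s i k) ((Lp.memLp _).locallyIntegrable (by norm_num))
      ((Lp.memLp _).locallyIntegrable (by norm_num)) ((Lp.memLp _).locallyIntegrable (by norm_num))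
      ((Lp.memLp _).locallyIntegrable (by norm_num))
    refine h.congr ?_ ?_
    · exact (Lp.coeFn_add _ _).symm
    · exact (Lp.coeFn_add _ _).symm
  zero_mem' := by
    intro s i k
    refine (isWD_zero (μ := volume) (v := dir i k) (F := ℂ)).congr ?_ ?_
    · exact (Lp.coeFn_zero _ _ _).symm
    · exact (Lp.coeFn_zero _ _ _).symm
  smul_mem' := by
    intro c u hu s i k
    refine ((hu s i k).const_smul c).congr ?_ ?_
    · exact (Lp.coeFn_smul c (u (s, none))).symm
    · exact (Lp.coeFn_smul c (u (s, some (i, k)))).symm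

theorem mem_HSub {N : ℕ} {u : Amb N} :
    u ∈ HSub N ↔ ∀ s i k, IsWD volume (dir i k) (u (s, none)) (u (s, some (i, k))) := Iff.rfl

theorem isClosed_HSub (N : ℕ) : IsClosed (HSub N : Set (Amb N)) := by
  have : (HSub N : Set (Amb N)) = ⋂ (s) (i) (k), {u : Amb N |
      IsWD volume (dir i k) (u (s, none)) (u (s, some (i, k)))} := by
    ext u; simp [mem_HSub]
  rw [this]
  refine isClosed_iInter fun s => isClosed_iInter fun i => isClosed_iInter fun k => ?_
  have h := isClosed_isWD (μ := (volume : Measure (Conf N))) (dir i k)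
  exact h.preimage (f := fun u : Amb N => (u (s, none), u (s, some (i, k))))
    (by fun_prop)

/-- antisymmetric elements. -/
def ASub (N : ℕ) : Submodule ℂ (Amb N) where
  carrier := {u | ∀ (σ : Equiv.Perm (Fin N)) (s : Spn N),
    permL σ (u (s ∘ σ, none)) = ((Equiv.Perm.sign σ : ℤ) : ℂ) • u (s, none)}
  add_mem' := by
    intro u v hu hv σ s
    simp only [PiLp.add_apply, map_add, smul_add, hu σ s, hv σ s]
  zero_mem' := by
    intro σ s
    simp
  smul_mem' := by
    intro c u hu σ s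
    simp only [PiLp.smul_apply, map_smul, hu σ s]
    rw [smul_comm]

theorem mem_ASub {N : ℕ} {u : Amb N} : u ∈ ASub N ↔ ∀ (σ : Equiv.Perm (Fin N)) (s : Spn N),
    permL σ (u (s ∘ σ, none)) = ((Equiv.Perm.sign σ : ℤ) : ℂ) • u (s, none) := Iff.rfl

theorem isClosed_ASub (N : ℕ) : IsClosed (ASub N : Set (Amb N)) := by
  have : (ASub N : Set (Amb N)) = ⋂ (σ : Equiv.Perm (Fin N)) (s : Spn N), {u : Amb N |
      permL σ (u (s ∘ σ, none)) = ((Equiv.Perm.sign σ : ℤ) : ℂ) • u (s, none)} := by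
    ext u; simp [mem_ASub]
  rw [this]
  refine isClosed_iInter fun σ => isClosed_iInter fun s => ?_
  refine isClosed_eq ?_ ?_
  · exact (permL σ).continuous.comp (by fun_prop)
  · fun_prop

/-- `H¹(Conf N; spins)`. -/
abbrev HS (N : ℕ) : Type := HSub N

/-- the Hilbert space of `N`-electron states of finite kinetic energy. -/
def FSub (N : ℕ) : Submodule ℂ (Amb N) := HSub N ⊓ ASub N

/-- the Hilbert space of `N`-electron states of finite kinetic energy. -/
abbrev FS (N : ℕ) : Type := FSub N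

instance (N : ℕ) : CompleteSpace (HS N) := (isClosed_HSub N).completeSpace_coe

instance (N : ℕ) : CompleteSpace (FS N) :=
  ((isClosed_HSub N).inter (isClosed_ASub N)).completeSpace_coe

/-! ### amplitude and gradient -/

/-- the amplitude. -/
def am {N : ℕ} : Amb N →L[ℂ] LS N :=
  (PiLp.continuousLinearEquiv 2 ℂ (fun _ : Spn N => LC N)).symm.toContinuousLinearMap.comp
    (ContinuousLinearMap.pi fun s => (PiLp.proj 2 (fun _ : Idx N => LC N) (s, none)))

@[simp] theorem am_apply {N : ℕ} (u : Amb N) (s : Spn N) : am u s = u (s, none) := rfl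

theorem norm_am_sq {N : ℕ} (u : Amb N) : ‖am u‖ ^ 2 = ∑ s, ‖u (s, none)‖ ^ 2 := by
  rw [PiLp.norm_sq_eq_of_L2]
  rfl

/-- twice the kinetic energy. -/
def kin {N : ℕ} (u : Amb N) : ℝ := ∑ s, ∑ i, ∑ k, ‖u (s, some (i, k))‖ ^ 2

theorem norm_sq_eq {N : ℕ} (u : Amb N) : ‖u‖ ^ 2 = ‖am u‖ ^ 2 + kin u := by
  rw [PiLp.norm_sq_eq_of_L2, norm_am_sq, kin, Fintype.sum_prod_type, ← Finset.sum_add_distrib]
  refine Finset.sum_congr rfl fun s _ => ?_
  rw [Fintype.sum_option, Fintype.sum_prod_type]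

/-! ### bridge with `ElectronState` -/

/-- from `ElectronState` to the ambient space. -/
def amb {N : ℕ} (Ψ : ElectronState N) : Amb N :=
  WithLp.toLp 2 fun p => match p with
    | (s, none) => MemLp.toLp (Ψ.amp s) (Ψ.amp_memLp s)
    | (s, some (i, k)) => MemLp.toLp (Ψ.grad s i k) (Ψ.grad_memLp s i k)

theorem amb_none {N : ℕ} (Ψ : ElectronState N) (s : Spn N) :
    amb Ψ (s, none) = MemLp.toLp (Ψ.amp s) (Ψ.amp_memLp s) := rfl

theorem amb_some {N : ℕ} (Ψ : ElectronState N) (s : Spn N) (i : Fin N) (k : Fin 3) :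
    amb Ψ (s, some (i, k)) = MemLp.toLp (Ψ.grad s i k) (Ψ.grad_memLp s i k) := rfl

theorem amb_none_ae {N : ℕ} (Ψ : ElectronState N) (s : Spn N) :
    amb Ψ (s, none) =ᵐ[volume] Ψ.amp s := MemLp.coeFn_toLp (Ψ.amp_memLp s)

theorem amb_some_ae {N : ℕ} (Ψ : ElectronState N) (s : Spn N) (i : Fin N) (k : Fin 3) :
    amb Ψ (s, some (i, k)) =ᵐ[volume] Ψ.grad s i k :=
  MemLp.coeFn_toLp (Ψ.grad_memLp s i k)

theorem amb_mem {N : ℕ} (Ψ : ElectronState N) : amb Ψ ∈ FSub N := by
  refine ⟨fun s i k => ?_, fun σ s => ?_⟩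
  · exact (isWeakDeriv_iff.1 (Ψ.grad_weak s i k)).congr (amb_none_ae Ψ s).symm
      (amb_some_ae Ψ s i k).symm
  · refine Lp.ext ?_
    have h1 := permL_ae σ (amb Ψ (s ∘ σ, none))
    have h2 : (fun x => amb Ψ (s ∘ σ, none) (x ∘ σ)) =ᵐ[volume] fun x => Ψ.amp (s ∘ σ) (x ∘ σ) :=
      (permE_mp σ).quasiMeasurePreserving.ae_eq_comp (amb_none_ae Ψ (s ∘ σ))
    have h3 : ∀ᵐ x, Ψ.amp (s ∘ σ) (x ∘ σ) = ((Equiv.Perm.sign σ : ℤ) : ℂ) * Ψ.amp s x :=
      Ψ.antisymm σ s
    filter_upwards [h1, h2, h3, amb_none_ae Ψ s,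
      Lp.coeFn_smul ((Equiv.Perm.sign σ : ℤ) : ℂ) (amb Ψ (s, none))] with x a1 a2 a3 a4 a5
    rw [a1, a2, a3, a5, Pi.smul_apply, a4, smul_eq_mul]

/-- from `ElectronState` to the Hilbert space. -/
def toFS {N : ℕ} (Ψ : ElectronState N) : FS N := ⟨amb Ψ, amb_mem Ψ⟩

/-- from the Hilbert space to `ElectronState`. -/
def ofFS {N : ℕ} (u : FS N) : ElectronState N where
  amp s := u.1 (s, none)
  grad s i k := u.1 (s, some (i, k))
  amp_memLp s := Lp.memLp _
  grad_memLp s i k := Lp.memLp _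
  grad_weak s i k := isWeakDeriv_iff.2 (u.2.1 s i k)
  antisymm σ s := by
    have h := u.2.2 σ s
    have h1 := permL_ae σ (u.1 (s ∘ σ, none))
    rw [h] at h1
    have h2 := Lp.coeFn_smul ((Equiv.Perm.sign σ : ℤ) : ℂ) (u.1 (s, none))
    rw [AEConf_iff]
    filter_upwards [h1, h2] with x a1 a2
    rw [← a1, a2]
    rfl

theorem toFS_ofFS {N : ℕ} (u : FS N) : toFS (ofFS u) = u := by
  apply Subtype.ext
  refine PiLp.ext fun p => ?_
  rcases p with ⟨s, _ | ⟨i, k⟩⟩
  · exact Lp.ext (amb_none_ae (ofFS u) s)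
  · exact Lp.ext (amb_some_ae (ofFS u) s i k)

end

end Vale.Agent.P363.H382
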