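import Vale.Agent.P363.H382.Contract
import Vale.Agent.P363.H382.Space

/-! Consequences of antisymmetry for `ElectronState`: every electron contributes the same;
`energy (sumPotential v) = kinetic + ∫ v * density`. -/

namespace Vale.Agent.P363.H382

open MeasureTheory Filter Topology Stmt R.Sob H518
open scoped ContDiff ENNReal ComplexConjugate

noncomputable section

set_option linter.unusedSectionVars false

variable {N : ℕ}

theorem amp_L2 (Ψ : ElectronState N) (s : Spn N) : MemLp (Ψ.amp s) 2 volume := Ψ.amp_memLp s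

theorem grad_L2 (Ψ : ElectronState N) (s : Spn N) (i : Fin N) (k : Fin 3) :
    MemLp (Ψ.grad s i k) 2 volume := Ψ.grad_memLp s i k

theorem grad_WD (Ψ : ElectronState N) (s : Spn N) (i : Fin N) (k : Fin 3) :
    IsWD volume (dir i k) (Ψ.amp s) (Ψ.grad s i k) := isWeakDeriv_iff.1 (Ψ.grad_weak s i k)

theorem amp_perm (Ψ : ElectronState N) (σ : Equiv.Perm (Fin N)) (s : Spn N) :
    ∀ᵐ x, Ψ.amp (s ∘ σ) (x ∘ σ) = ((Equiv.Perm.sign σ : ℤ) : ℂ) * Ψ.amp s x :=
  Ψ.antisymm σ s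

/-- derivatives are antisymmetric as well. -/
theorem grad_perm (Ψ : ElectronState N) (σ : Equiv.Perm (Fin N)) (s : Spn N) (i : Fin N)
    (k : Fin 3) : ∀ᵐ x, Ψ.grad (s ∘ σ) (σ.symm i) k (x ∘ σ) =
      ((Equiv.Perm.sign σ : ℤ) : ℂ) * Ψ.grad s i k x := by
  have h1 : IsWD volume (dir i k) (fun x => Ψ.amp (s ∘ σ) (permE σ x))
      (fun x => Ψ.grad (s ∘ σ) (σ.symm i) k (permE σ x)) := by
    refine isWD_comp_equiv (permE σ) (permE_mp σ) ?_
    rw [dir_comp]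
    exact grad_WD Ψ (s ∘ σ) (σ.symm i) k
  have h2 := (grad_WD Ψ s i k).const_smul ((Equiv.Perm.sign σ : ℤ) : ℂ)
  have h3 : IsWD volume (dir i k) (fun x => Ψ.amp (s ∘ σ) (permE σ x))
      (fun x => ((Equiv.Perm.sign σ : ℤ) : ℂ) • Ψ.grad s i k x) := by
    refine h2.congr ?_ (EventuallyEq.refl _ _)
    filter_upwards [amp_perm Ψ σ s] with x hx
    rw [permE_apply, hx, smul_eq_mul]
  have h4 : MemLp (fun x => Ψ.grad (s ∘ σ) (σ.symm i) k (permE σ x)) 2 volume :=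
    (grad_L2 Ψ (s ∘ σ) (σ.symm i) k).comp_measurePreserving (permE_mp σ)
  exact h1.unique h3 (h4.locallyIntegrable (by norm_num))
    (((grad_L2 Ψ s i k).const_mul _).locallyIntegrable (by norm_num))

theorem norm_sign (σ : Equiv.Perm (Fin N)) : ‖((Equiv.Perm.sign σ : ℤ) : ℂ)‖ = 1 := by
  rcases Int.units_eq_one_or (Equiv.Perm.sign σ) with h | h <;> simp [h]

theorem norm_amp_perm (Ψ : ElectronState N) (σ : Equiv.Perm (Fin N)) (s : Spn N) :
    ∀ᵐ x, ‖Ψ.amp (s ∘ σ) (x ∘ σ)‖ = ‖Ψ.amp s x‖ := by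
  filter_upwards [amp_perm Ψ σ s] with x hx
  rw [hx, norm_mul, norm_sign, one_mul]

theorem norm_grad_perm (Ψ : ElectronState N) (σ : Equiv.Perm (Fin N)) (s : Spn N) (i : Fin N)
    (k : Fin 3) : ∀ᵐ x, ‖Ψ.grad (s ∘ σ) (σ.symm i) k (x ∘ σ)‖ = ‖Ψ.grad s i k x‖ := by
  filter_upwards [grad_perm Ψ σ s i k] with x hx
  rw [hx, norm_mul, norm_sign, one_mul]

/-- reindexing of spins -/
def spinE (σ : Equiv.Perm (Fin N)) : Spn N ≃ Spn N where
  toFun s := s ∘ σ
  invFun s := s ∘ σ.symm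
  left_inv s := by funext i; simp
  right_inv s := by funext i; simp

@[simp] theorem spinE_apply (σ : Equiv.Perm (Fin N)) (s : Spn N) : spinE σ s = s ∘ σ := rfl

theorem integral_perm {F : Type*} [NormedAddCommGroup F] [NormedSpace ℝ F]
    (σ : Equiv.Perm (Fin N)) (f : Conf N → F) : ∫ x : Conf N, f (x ∘ σ) = ∫ x, f x :=
  integral_comp_equiv (permE σ) (permE_mp σ) f

theorem integrable_perm_iff {F : Type*} [NormedAddCommGroup F]
    (σ : Equiv.Perm (Fin N)) {f : Conf N → F} :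
    Integrable (fun x => f (x ∘ σ)) ↔ Integrable f :=
  (permE_mp σ).integrable_comp_emb (permE σ).toHomeomorph.measurableEmbedding

theorem int_perm (Ψ : ElectronState N) (W : Conf N → ℝ) (σ : Equiv.Perm (Fin N)) (s : Spn N) :
    ∫ x, W (x ∘ σ) * ‖Ψ.amp s x‖ ^ 2 = ∫ x, W x * ‖Ψ.amp (s ∘ σ) x‖ ^ 2 := by
  rw [← integral_perm σ (fun x => W x * ‖Ψ.amp (s ∘ σ) x‖ ^ 2)]
  refine integral_congr_ae ?_
  filter_upwards [norm_amp_perm Ψ σ s] with x hx
  rw [hx]

theorem integrable_perm (Ψ : ElectronState N) (W : Conf N → ℝ) (σ : Equiv.Perm (Fin N))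
    (s : Spn N) : Integrable (fun x => W (x ∘ σ) * ‖Ψ.amp s x‖ ^ 2) ↔
      Integrable (fun x => W x * ‖Ψ.amp (s ∘ σ) x‖ ^ 2) := by
  rw [← integrable_perm_iff σ (f := fun x => W x * ‖Ψ.amp (s ∘ σ) x‖ ^ 2)]
  refine integrable_congr ?_
  filter_upwards [norm_amp_perm Ψ σ s] with x hx
  rw [hx]

/-- potential energy -/
def potE (w : Conf N → ℝ) (Ψ : ElectronState N) : ℝ := ∑ s, ∫ x, w x * ‖Ψ.amp s x‖ ^ 2

/-- twice the kinetic energy -/
def kinE (Ψ : ElectronState N) : ℝ := ∑ s, ∑ i, ∑ k, ∫ x, ‖Ψ.grad s i k x‖ ^ 2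

theorem energy_eq (w : Conf N → ℝ) (Ψ : ElectronState N) :
    energy w Ψ = (1 / 2) * kinE Ψ + potE w Ψ := rfl

theorem normSq_eq (Ψ : ElectronState N) : normSq Ψ = ∑ s, ∫ x, ‖Ψ.amp s x‖ ^ 2 := rfl

theorem potE_perm (Ψ : ElectronState N) (W : Conf N → ℝ) (σ : Equiv.Perm (Fin N)) :
    potE (fun x => W (x ∘ σ)) Ψ = potE W Ψ := by
  unfold potE
  rw [← Equiv.sum_comp (spinE σ) (fun s => ∫ x, W x * ‖Ψ.amp s x‖ ^ 2)]
  exact Finset.sum_congr rfl fun s _ => int_perm Ψ W σ s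

theorem kin_perm (Ψ : ElectronState N) (σ : Equiv.Perm (Fin N)) (i : Fin N) (k : Fin 3) :
    ∑ s, ∫ x, ‖Ψ.grad s (σ.symm i) k x‖ ^ 2 = ∑ s, ∫ x, ‖Ψ.grad s i k x‖ ^ 2 := by
  rw [← Equiv.sum_comp (spinE σ) (fun s => ∫ x, ‖Ψ.grad s (σ.symm i) k x‖ ^ 2)]
  refine Finset.sum_congr rfl fun s _ => ?_
  rw [spinE_apply, ← integral_perm σ (fun x => ‖Ψ.grad (s ∘ σ) (σ.symm i) k x‖ ^ 2)]
  refine integral_congr_ae ?_
  filter_upwards [norm_grad_perm Ψ σ s i k] with x hx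
  rw [hx]

/-- all electrons have the same kinetic energy. -/
theorem kin_electron (Ψ : ElectronState N) (i j : Fin N) (k : Fin 3) :
    ∑ s, ∫ x, ‖Ψ.grad s i k x‖ ^ 2 = ∑ s, ∫ x, ‖Ψ.grad s j k x‖ ^ 2 := by
  have := kin_perm Ψ (Equiv.swap i j) i k
  simpa using this.symm

theorem kinE_eq {n : ℕ} (Ψ : ElectronState (n + 1)) :
    kinE Ψ = (n + 1 : ℝ) * ∑ s, ∑ k, ∫ x, ‖Ψ.grad s 0 k x‖ ^ 2 := by
  have h1 : kinE Ψ = ∑ i : Fin (n + 1), ∑ k, ∑ s, ∫ x, ‖Ψ.grad s i k x‖ ^ 2 := by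
    unfold kinE
    rw [Finset.sum_comm]
    refine Finset.sum_congr rfl fun i _ => ?_
    rw [Finset.sum_comm]
  rw [h1]
  have h2 : ∀ i : Fin (n + 1), ∑ k, ∑ s, ∫ x, ‖Ψ.grad s i k x‖ ^ 2 =
      ∑ s, ∑ k, ∫ x, ‖Ψ.grad s 0 k x‖ ^ 2 := by
    intro i
    rw [Finset.sum_comm (s := (Finset.univ : Finset (Spn (n + 1))))]
    exact Finset.sum_congr rfl fun k _ => kin_electron Ψ i 0 k
  rw [Finset.sum_congr rfl fun i _ => h2 i]
  simp

/-- potential energy of a one-body potential: all electrons contribute the same. -/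
theorem potE_one {n : ℕ} (Ψ : ElectronState (n + 1)) (v : R3 → ℝ) (i : Fin (n + 1)) :
    potE (fun x => v (x i)) Ψ = potE (fun x => v (x 0)) Ψ := by
  have := potE_perm Ψ (fun x => v (x 0)) (Equiv.swap 0 i)
  simpa using this

theorem integrable_one {n : ℕ} (Ψ : ElectronState (n + 1)) (v : R3 → ℝ)
    (h : ∀ s, Integrable (fun x : Conf (n + 1) => v (x 0) * ‖Ψ.amp s x‖ ^ 2))
    (i : Fin (n + 1)) (s : Spn (n + 1)) :
    Integrable (fun x : Conf (n + 1) => v (x i) * ‖Ψ.amp s x‖ ^ 2) := by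
  have h1 := (integrable_perm Ψ (fun x => v (x 0)) (Equiv.swap 0 i) s).2 (h _)
  simpa using h1

theorem potE_sumPotential {n : ℕ} (Ψ : ElectronState (n + 1)) (v : R3 → ℝ)
    (h : ∀ s, Integrable (fun x : Conf (n + 1) => v (x 0) * ‖Ψ.amp s x‖ ^ 2)) :
    potE (sumPotential v) Ψ = (n + 1 : ℝ) * potE (fun x => v (x 0)) Ψ := by
  have h1 : potE (sumPotential v) Ψ = ∑ i, potE (fun x => v (x i)) Ψ := by
    unfold potE sumPotential
    rw [Finset.sum_comm]
    refine Finset.sum_congr rfl fun s _ => ?_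
    rw [← integral_finsetSum _ fun i _ => integrable_one Ψ v h i s]
    simp only [Finset.sum_mul]
  rw [h1, Finset.sum_congr rfl fun i _ => potE_one Ψ v i]
  simp

/-! ### density -/

theorem integrable_normSq {n : ℕ} (Ψ : ElectronState (n + 1)) (s : Spn (n + 1)) :
    Integrable (fun x => ‖Ψ.amp s x‖ ^ 2) :=
  (memLp_two_iff_integrable_sq_norm (amp_L2 Ψ s).1).1 (amp_L2 Ψ s)

theorem density_eq {n : ℕ} (Ψ : ElectronState (n + 1)) (r : R3) :
    density Ψ r = (n + 1 : ℝ) * ∑ s, ∫ y : Conf n, ‖Ψ.amp s (Fin.cons r y)‖ ^ 2 := rfl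

theorem integrable_slice {n : ℕ} (Ψ : ElectronState (n + 1)) (s : Spn (n + 1)) :
    Integrable (fun r : R3 => ∫ y : Conf n, ‖Ψ.amp s (Fin.cons r y)‖ ^ 2) := by
  have h := integrable_unc_iff.2 (integrable_normSq Ψ s)
  exact h.integral_prod_left

theorem integrable_density {n : ℕ} (Ψ : ElectronState (n + 1)) : Integrable (density Ψ) := by
  have h : density Ψ = fun r => (n + 1 : ℝ) * ∑ s, ∫ y : Conf n, ‖Ψ.amp s (Fin.cons r y)‖ ^ 2 := rfl
  rw [h]
  exact (integrable_finsetSum _ fun s _ => integrable_slice Ψ s).const_mul _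

theorem density_nonneg {n : ℕ} (Ψ : ElectronState (n + 1)) (r : R3) : 0 ≤ density Ψ r := by
  rw [density_eq]
  positivity

theorem int_unc_mul {n : ℕ} (v : R3 → ℝ) {f : Conf (n + 1) → ℝ}
    (h : Integrable (fun x : Conf (n + 1) => v (x 0) * f x)) :
    ∫ x : Conf (n + 1), v (x 0) * f x = ∫ r : R3, v r * ∫ y : Conf n, f (Fin.cons r y) := by
  rw [← integral_unc]
  have h1 : Integrable (unc fun x : Conf (n + 1) => v (x 0) * f x)
    (volume : Measure (R3 × Conf n)) := integrable_unc_iff.2 h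
  rw [Measure.volume_eq_prod] at h1 ⊢
  rw [integral_prod _ h1]
  refine integral_congr_ae (Eventually.of_forall fun r => ?_)
  simp only [unc, Fin.cons_zero]
  rw [integral_const_mul]

theorem integrable_unc_mul {n : ℕ} (v : R3 → ℝ) {f : Conf (n + 1) → ℝ}
    (h : Integrable (fun x : Conf (n + 1) => v (x 0) * f x)) :
    Integrable (fun r : R3 => v r * ∫ y : Conf n, f (Fin.cons r y)) := by
  have h1 : Integrable (unc fun x : Conf (n + 1) => v (x 0) * f x)
    (volume : Measure (R3 × Conf n)) := integrable_unc_iff.2 h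
  refine (h1.integral_prod_left).congr (Eventually.of_forall fun r => ?_)
  simp only [unc, Fin.cons_zero]
  rw [integral_const_mul]

/-- `∑ₛ ∫ v(x₀) |Ψ|² = (1/(n+1)) ∫ v ρ`. -/
theorem potE_zero_eq {n : ℕ} (Ψ : ElectronState (n + 1)) (v : R3 → ℝ)
    (h : ∀ s, Integrable (fun x : Conf (n + 1) => v (x 0) * ‖Ψ.amp s x‖ ^ 2)) :
    (n + 1 : ℝ) * potE (fun x => v (x 0)) Ψ = ∫ r, v r * density Ψ r := by
  unfold potE
  have h1 : ∀ r, v r * density Ψ r = (n + 1 : ℝ) *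
      ∑ s, (v r * ∫ y : Conf n, ‖Ψ.amp s (Fin.cons r y)‖ ^ 2) := by
    intro r
    rw [density_eq, ← Finset.mul_sum]
    ring
  simp only [h1]
  rw [integral_const_mul, integral_finsetSum _ fun s _ => integrable_unc_mul v (h s)]
  congr 1
  exact Finset.sum_congr rfl fun s _ => int_unc_mul v (h s)

theorem integrable_mul_density {n : ℕ} (Ψ : ElectronState (n + 1)) (v : R3 → ℝ)
    (h : ∀ s, Integrable (fun x : Conf (n + 1) => v (x 0) * ‖Ψ.amp s x‖ ^ 2)) :
    Integrable (fun r => v r * density Ψ r) := by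
  have h1 : (fun r => v r * density Ψ r) = fun r => (n + 1 : ℝ) *
      ∑ s, (v r * ∫ y : Conf n, ‖Ψ.amp s (Fin.cons r y)‖ ^ 2) := by
    funext r
    rw [density_eq, ← Finset.mul_sum]
    ring
  rw [h1]
  exact (integrable_finsetSum _ fun s _ => integrable_unc_mul v (h s)).const_mul _

/-- **N1.** -/
theorem energy_sumPotential {n : ℕ} (Ψ : ElectronState (n + 1)) (v : R3 → ℝ)
    (h : ∀ s, Integrable (fun x : Conf (n + 1) => v (x 0) * ‖Ψ.amp s x‖ ^ 2)) :
    energy (sumPotential v) Ψ = (1 / 2) * kinE Ψ + ∫ r, v r * density Ψ r := by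
  rw [energy_eq, potE_sumPotential Ψ v h, potE_zero_eq Ψ v h]

theorem energy_sumPotential' {n : ℕ} (Ψ : ElectronState (n + 1)) (v : R3 → ℝ)
    (h : ∀ s, Integrable (fun x : Conf (n + 1) => v (x 0) * ‖Ψ.amp s x‖ ^ 2)) :
    energy (sumPotential v) Ψ = (n + 1 : ℝ) * ∑ s, ((1 / 2) * (∑ k, ∫ x, ‖Ψ.grad s 0 k x‖ ^ 2) +
      ∫ x : Conf (n + 1), v (x 0) * ‖Ψ.amp s x‖ ^ 2) := by
  rw [energy_eq, potE_sumPotential Ψ v h, kinE_eq, Finset.sum_add_distrib, ← Finset.mul_sum]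
  unfold potE
  ring

theorem integral_density {n : ℕ} (Ψ : ElectronState (n + 1)) :
    ∫ r, density Ψ r = (n + 1 : ℝ) * normSq Ψ := by
  have h := potE_zero_eq Ψ (fun _ => 1) (fun s => by simpa using integrable_normSq Ψ s)
  simp only [one_mul] at h
  rw [← h, normSq_eq]
  unfold potE
  simp

/-! ### uniqueness of the gradient, extensionality -/

theorem grad_unique (Ψ Φ : ElectronState N) (h : ∀ s, Ψ.amp s =ᵐ[volume] Φ.amp s)
    (s : Spn N) (i : Fin N) (k : Fin 3) : Ψ.grad s i k =ᵐ[volume] Φ.grad s i k := by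
  have h1 := (grad_WD Ψ s i k).congr (h s) (EventuallyEq.refl _ _)
  exact h1.unique (grad_WD Φ s i k) ((grad_L2 Ψ s i k).locallyIntegrable (by norm_num))
    ((grad_L2 Φ s i k).locallyIntegrable (by norm_num))

theorem energy_congr (w : Conf N → ℝ) (Ψ Φ : ElectronState N)
    (h : ∀ s, Ψ.amp s =ᵐ[volume] Φ.amp s) : energy w Ψ = energy w Φ := by
  rw [energy_eq, energy_eq]
  congr 1
  · congr 1
    unfold kinE
    refine Finset.sum_congr rfl fun s _ => Finset.sum_congr rfl fun i _ =>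
      Finset.sum_congr rfl fun k _ => integral_congr_ae ?_
    filter_upwards [grad_unique Ψ Φ h s i k] with x hx
    rw [hx]
  · unfold potE
    refine Finset.sum_congr rfl fun s _ => integral_congr_ae ?_
    filter_upwards [h s] with x hx
    rw [hx]

theorem normSq_congr (Ψ Φ : ElectronState N)
    (h : ∀ s, Ψ.amp s =ᵐ[volume] Φ.amp s) : normSq Ψ = normSq Φ := by
  rw [normSq_eq, normSq_eq]
  refine Finset.sum_congr rfl fun s _ => integral_congr_ae ?_
  filter_upwards [h s] with x hx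
  rw [hx]

end

end Vale.Agent.P363.H382
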