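import Vale.Agent.P363.H382.Energy
import Vale.Agent.P363.H382.Abs

/-! Bounded sesquilinear forms on the Hilbert spaces `HS N`, `FS N`. -/

namespace Vale.Agent.P363.H382

open MeasureTheory Filter Topology Stmt R.Sob
open scoped ContDiff ENNReal ComplexConjugate

noncomputable section

set_option linter.unusedSectionVars false

variable {N : ℕ}

/-- pull-back of a sesquilinear form. -/
def pull {V W : Type*} [NormedAddCommGroup V] [InnerProductSpace ℂ V] [NormedAddCommGroup W]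
    [InnerProductSpace ℂ W] (ι : V →L[ℂ] W) (A : W →L⋆[ℂ] W →L[ℂ] ℂ) : V →L⋆[ℂ] V →L[ℂ] ℂ :=
  ((ContinuousLinearMap.compL ℂ V W ℂ).flip ι).comp (A.comp ι)

@[simp] theorem pull_apply {V W : Type*} [NormedAddCommGroup V] [InnerProductSpace ℂ V]
    [NormedAddCommGroup W] [InnerProductSpace ℂ W] (ι : V →L[ℂ] W) (A : W →L⋆[ℂ] W →L[ℂ] ℂ)
    (u v : V) : pull ι A u v = A (ι u) (ι v) := rfl

theorem pull_herm {V W : Type*} [NormedAddCommGroup V] [InnerProductSpace ℂ V]
    [NormedAddCommGroup W] [InnerProductSpace ℂ W] (ι : V →L[ℂ] W) {A : W →L⋆[ℂ] W →L[ℂ] ℂ}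
    (hA : Abs.Herm A) : Abs.Herm (pull ι A) := fun _ _ => hA _ _

/-- the inclusion `FS N → HS N`. -/
def incl : FS N →L[ℂ] HS N where
  toFun u := ⟨u.1, u.2.1⟩
  map_add' _ _ := rfl
  map_smul' _ _ := rfl
  cont := by
    refine Continuous.subtype_mk continuous_subtype_val _

@[simp] theorem incl_coe (u : FS N) : ((incl u : HS N) : Amb N) = u := rfl

/-- `J`: amplitude of an element of `FS N`. -/
def amF : FS N →L[ℂ] LS N := am.comp (FSub N).subtypeL

/-- `J`: amplitude of an element of `HS N`. -/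
def amH : HS N →L[ℂ] LS N := am.comp (HSub N).subtypeL

@[simp] theorem amF_apply (u : FS N) (s : Spn N) : amF u s = u.1 (s, none) := rfl

@[simp] theorem amH_apply (u : HS N) (s : Spn N) : amH u s = u.1 (s, none) := rfl

/-- form boundedness of a potential -/
structure FBd (w : Conf N → ℝ) : Prop where
  meas : AEStronglyMeasurable w volume
  int : ∀ u : HS N, ∀ s, Integrable (fun x => |w x| * ‖u.1 (s, none) x‖ ^ 2)
  bound : ∃ C : ℝ, 0 ≤ C ∧ ∀ u : HS N,
    ∑ s, ∫ x, |w x| * ‖u.1 (s, none) x‖ ^ 2 ≤ C * ‖u‖ ^ 2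

theorem FBd.int_mul {w : Conf N → ℝ} (hw : FBd w) (u v : HS N) (s : Spn N) :
    Integrable (fun x => (w x : ℂ) * (conj (u.1 (s, none) x) * v.1 (s, none) x)) := by
  have h1 := ((hw.int u s).add (hw.int v s)).div_const 2
  refine h1.mono' ?_ (Eventually.of_forall fun x => ?_)
  · refine (Complex.continuous_ofReal.comp_aestronglyMeasurable hw.meas).mul ?_
    exact (Complex.continuous_conj.comp_aestronglyMeasurable (Lp.aestronglyMeasurable _)).mul
      (Lp.aestronglyMeasurable _)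
  · simp only [norm_mul, Complex.norm_real, RCLike.norm_conj, Pi.add_apply, Real.norm_eq_abs]
    nlinarith [abs_nonneg (w x), sq_nonneg (‖u.1 (s, none) x‖ - ‖v.1 (s, none) x‖),
      mul_nonneg (abs_nonneg (w x)) (sq_nonneg (‖u.1 (s, none) x‖ - ‖v.1 (s, none) x‖))]

theorem FBd.int' {w : Conf N → ℝ} (hw : FBd w) (u : HS N) (s : Spn N) :
    Integrable (fun x => w x * ‖u.1 (s, none) x‖ ^ 2) := by
  refine (hw.int u s).mono' (hw.meas.mul ((Lp.aestronglyMeasurable _).norm.pow 2))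
    (Eventually.of_forall fun x => ?_)
  rw [Real.norm_eq_abs, abs_mul, abs_of_nonneg (sq_nonneg _ : 0 ≤ ‖u.1 (s, none) x‖ ^ 2)]

/-- the sesquilinear form of a potential, as a function. -/
def potB (w : Conf N → ℝ) (u v : HS N) : ℂ :=
  ∑ s, ∫ x, (w x : ℂ) * (conj (u.1 (s, none) x) * v.1 (s, none) x)

theorem potB_add_left {w : Conf N → ℝ} (hw : FBd w) (u u' v : HS N) :
    potB w (u + u') v = potB w u v + potB w u' v := by
  unfold potB
  rw [← Finset.sum_add_distrib]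
  refine Finset.sum_congr rfl fun s _ => ?_
  rw [← integral_add (hw.int_mul u v s) (hw.int_mul u' v s)]
  refine integral_congr_ae ?_
  filter_upwards [Lp.coeFn_add (u.1 (s, none)) (u'.1 (s, none))] with x hx
  have : (u + u').1 (s, none) x = u.1 (s, none) x + u'.1 (s, none) x := hx
  rw [this, map_add]
  ring

theorem potB_add_right {w : Conf N → ℝ} (hw : FBd w) (u v v' : HS N) :
    potB w u (v + v') = potB w u v + potB w u v' := by
  unfold potB
  rw [← Finset.sum_add_distrib]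
  refine Finset.sum_congr rfl fun s _ => ?_
  rw [← integral_add (hw.int_mul u v s) (hw.int_mul u v' s)]
  refine integral_congr_ae ?_
  filter_upwards [Lp.coeFn_add (v.1 (s, none)) (v'.1 (s, none))] with x hx
  have : (v + v').1 (s, none) x = v.1 (s, none) x + v'.1 (s, none) x := hx
  rw [this]
  ring

theorem potB_smul_left (w : Conf N → ℝ) (c : ℂ) (u v : HS N) :
    potB w (c • u) v = conj c * potB w u v := by
  unfold potB
  rw [Finset.mul_sum]
  refine Finset.sum_congr rfl fun s _ => ?_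
  rw [← integral_const_mul]
  refine integral_congr_ae ?_
  filter_upwards [Lp.coeFn_smul c (u.1 (s, none))] with x hx
  have : (c • u).1 (s, none) x = c * u.1 (s, none) x := hx
  rw [this, map_mul]
  ring

theorem potB_smul_right (w : Conf N → ℝ) (c : ℂ) (u v : HS N) :
    potB w u (c • v) = c * potB w u v := by
  unfold potB
  rw [Finset.mul_sum]
  refine Finset.sum_congr rfl fun s _ => ?_
  rw [← integral_const_mul]
  refine integral_congr_ae ?_
  filter_upwards [Lp.coeFn_smul c (v.1 (s, none))] with x hx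
  have : (c • v).1 (s, none) x = c * v.1 (s, none) x := hx
  rw [this]
  ring

theorem potB_conj (w : Conf N → ℝ) (u v : HS N) : conj (potB w u v) = potB w v u := by
  unfold potB
  rw [map_sum]
  refine Finset.sum_congr rfl fun s _ => ?_
  rw [← integral_conj]
  congr 1
  funext x
  simp only [map_mul, Complex.conj_ofReal, Complex.conj_conj]
  ring

theorem norm_potB_le {w : Conf N → ℝ} (hw : FBd w) {C : ℝ}
    (hb : ∀ u : HS N, ∑ s, ∫ x, |w x| * ‖u.1 (s, none) x‖ ^ 2 ≤ C * ‖u‖ ^ 2) (u v : HS N) :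
    ‖potB w u v‖ ≤ C * ‖u‖ * ‖v‖ := by
  -- first the additive bound
  have h1 : ∀ u v : HS N, ‖potB w u v‖ ≤ C * ((‖u‖ ^ 2 + ‖v‖ ^ 2) / 2) := by
    intro u v
    calc ‖potB w u v‖ ≤ ∑ s, ‖∫ x, (w x : ℂ) * (conj (u.1 (s, none) x) * v.1 (s, none) x)‖ :=
          norm_sum_le _ _
      _ ≤ ∑ s, ((∫ x, |w x| * ‖u.1 (s, none) x‖ ^ 2) + ∫ x, |w x| * ‖v.1 (s, none) x‖ ^ 2) / 2 := by
          refine Finset.sum_le_sum fun s _ => ?_
          refine (norm_integral_le_integral_norm _).trans ?_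
          rw [← integral_add (hw.int u s) (hw.int v s), ← integral_div]
          refine integral_mono_of_nonneg (Eventually.of_forall fun x => norm_nonneg _)
            (((hw.int u s).add (hw.int v s)).div_const 2) (Eventually.of_forall fun x => ?_)
          simp only [norm_mul, Complex.norm_real, RCLike.norm_conj, Real.norm_eq_abs]
          nlinarith [mul_nonneg (abs_nonneg (w x))
            (sq_nonneg (‖u.1 (s, none) x‖ - ‖v.1 (s, none) x‖))]
      _ = ((∑ s, ∫ x, |w x| * ‖u.1 (s, none) x‖ ^ 2) +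
            ∑ s, ∫ x, |w x| * ‖v.1 (s, none) x‖ ^ 2) / 2 := by
          rw [← Finset.sum_add_distrib, Finset.sum_div]
      _ ≤ _ := by
          have a1 := hb u
          have a2 := hb v
          linarith
  rcases eq_or_ne u 0 with hu | hu
  · have : potB w u v = 0 := by
      have := potB_smul_left w 0 u v
      simpa [hu] using this
    rw [this]; simp [hu]
  rcases eq_or_ne v 0 with hv | hv
  · have : potB w u v = 0 := by
      have := potB_smul_right w 0 u v
      simpa [hv] using this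
    rw [this]; simp [hv]
  have hu' : 0 < ‖u‖ := norm_pos_iff.2 hu
  have hv' : 0 < ‖v‖ := norm_pos_iff.2 hv
  have h2 := h1 (((‖u‖⁻¹ : ℝ) : ℂ) • u) (((‖v‖⁻¹ : ℝ) : ℂ) • v)
  rw [potB_smul_left, potB_smul_right, norm_smul, norm_smul, norm_mul, norm_mul, RCLike.norm_conj,
    Complex.norm_real, Complex.norm_real, Real.norm_eq_abs, Real.norm_eq_abs,
    abs_of_pos (inv_pos.2 hu'), abs_of_pos (inv_pos.2 hv'), inv_mul_cancel₀ hu'.ne',
    inv_mul_cancel₀ hv'.ne'] at h2
  have h3 : ‖u‖⁻¹ * (‖v‖⁻¹ * ‖potB w u v‖) ≤ C := by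
    refine h2.trans (le_of_eq ?_)
    ring
  calc ‖potB w u v‖ = (‖u‖⁻¹ * (‖v‖⁻¹ * ‖potB w u v‖)) * ‖u‖ * ‖v‖ := by
        field_simp
    _ ≤ C * ‖u‖ * ‖v‖ := by gcongr

/-- the bounded sesquilinear form of a form-bounded potential. -/
def formW (w : Conf N → ℝ) (hw : FBd w) : HS N →L⋆[ℂ] HS N →L[ℂ] ℂ :=
  LinearMap.mkContinuous₂
    (LinearMap.mk₂'ₛₗ (starRingEnd ℂ) (RingHom.id ℂ) (potB w) (potB_add_left hw)
      (fun c u v => by rw [potB_smul_left]; rfl) (potB_add_right hw)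
      (fun c u v => by rw [potB_smul_right]; rfl))
    hw.bound.choose (fun u v => norm_potB_le hw hw.bound.choose_spec.2 u v)

@[simp] theorem formW_apply (w : Conf N → ℝ) (hw : FBd w) (u v : HS N) :
    formW w hw u v = potB w u v := rfl

theorem formW_herm (w : Conf N → ℝ) (hw : FBd w) : Abs.Herm (formW w hw) := fun u v =>
  potB_conj w u v

theorem formW_self (w : Conf N → ℝ) (hw : FBd w) (u : HS N) :
    Abs.qf (formW w hw) u = ∑ s, ∫ x, w x * ‖u.1 (s, none) x‖ ^ 2 := by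
  unfold Abs.qf
  rw [formW_apply, potB]
  have h : ∀ s : Spn N, ∫ x, (w x : ℂ) * (conj (u.1 (s, none) x) * u.1 (s, none) x) =
      ((∫ x, w x * ‖u.1 (s, none) x‖ ^ 2 : ℝ) : ℂ) := by
    intro s
    rw [← integral_complex_ofReal]
    congr 1
    funext x
    rw [RCLike.conj_mul]
    push_cast
    rfl
  rw [Finset.sum_congr rfl fun s _ => h s, ← Complex.ofReal_sum]
  exact Complex.ofReal_re _

/-- kinetic form `(1/2) ∑ ⟨∂u, ∂v⟩`. -/
def formT : HS N →L⋆[ℂ] HS N →L[ℂ] ℂ :=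
  (1 / 2 : ℂ) • (pull (HSub N).subtypeL (innerSL ℂ) - pull amH (innerSL ℂ))

theorem formT_apply (u v : HS N) : formT u v = (1 / 2 : ℂ) * (inner ℂ u.1 v.1 -
    inner ℂ (amH u) (amH v)) := rfl

theorem inner_split (u v : HS N) : inner ℂ u.1 v.1 = inner ℂ (amH u) (amH v) +
    ∑ s, ∑ i, ∑ k, inner ℂ (u.1 (s, some (i, k))) (v.1 (s, some (i, k))) := by
  rw [PiLp.inner_apply, PiLp.inner_apply, Fintype.sum_prod_type, ← Finset.sum_add_distrib]
  refine Finset.sum_congr rfl fun s _ => ?_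
  rw [Fintype.sum_option, Fintype.sum_prod_type]
  rfl

theorem formT_eq (u v : HS N) : formT u v = (1 / 2 : ℂ) *
    ∑ s, ∑ i, ∑ k, inner ℂ (u.1 (s, some (i, k))) (v.1 (s, some (i, k))) := by
  rw [formT_apply, inner_split]
  ring

theorem formT_herm : Abs.Herm (formT (N := N)) := by
  intro u v
  rw [formT_apply, formT_apply, map_mul, map_sub, inner_conj_symm, inner_conj_symm]
  congr 1
  simp [map_ofNat]

theorem formT_self (u : HS N) : Abs.qf formT u = (1 / 2) * kin u.1 := by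
  have h1 : inner ℂ u.1 u.1 = ((‖u.1‖ ^ 2 : ℝ) : ℂ) := by
    rw [inner_self_eq_norm_sq_to_K]; push_cast; rfl
  have h2 : inner ℂ (amH u) (amH u) = ((‖amH u‖ ^ 2 : ℝ) : ℂ) := by
    rw [inner_self_eq_norm_sq_to_K]; push_cast; rfl
  unfold Abs.qf
  rw [formT_apply, h1, h2]
  have h3 : (1 / 2 : ℂ) * (((‖u.1‖ ^ 2 : ℝ) : ℂ) - ((‖amH u‖ ^ 2 : ℝ) : ℂ)) =
      (((1 / 2) * (‖u.1‖ ^ 2 - ‖amH u‖ ^ 2) : ℝ) : ℂ) := by
    push_cast; ring
  rw [h3]
  have h4 : ‖amH u‖ ^ 2 = ‖am u.1‖ ^ 2 := rfl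
  rw [h4, norm_sq_eq]
  change (1 / 2) * (‖am u.1‖ ^ 2 + kin u.1 - ‖am u.1‖ ^ 2) = _
  ring

/-! ### relation with `ElectronState` -/

theorem norm_toLp_sq' {α : Type*} [MeasurableSpace α] {μ : Measure α} {f : α → ℂ}
    (hf : MemLp f 2 μ) : ‖hf.toLp f‖ ^ 2 = ∫ x, ‖f x‖ ^ 2 ∂μ := H518.norm_toLp_sq hf

theorem norm_Lp_sq {α : Type*} [MeasurableSpace α] {μ : Measure α} (f : Lp ℂ 2 μ) :
    ‖f‖ ^ 2 = ∫ x, ‖f x‖ ^ 2 ∂μ := by
  have := H518.norm_toLp_sq (Lp.memLp f)
  rwa [Lp.toLp_coeFn] at this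

theorem normSq_toFS (Ψ : ElectronState N) : normSq Ψ = ‖amF (toFS Ψ)‖ ^ 2 := by
  have h : ‖amF (toFS Ψ)‖ ^ 2 = ‖am (amb Ψ)‖ ^ 2 := rfl
  rw [h, norm_am_sq, normSq_eq]
  exact Finset.sum_congr rfl fun s _ => (H518.norm_toLp_sq (amp_L2 Ψ s)).symm

theorem normSq_ofFS (u : FS N) : normSq (ofFS u) = ‖amF u‖ ^ 2 := by
  have := normSq_toFS (ofFS u)
  rwa [toFS_ofFS] at this

theorem kinE_toFS (Ψ : ElectronState N) : kinE Ψ = kin (toFS Ψ).1 := by
  unfold kinE kin
  refine Finset.sum_congr rfl fun s _ => Finset.sum_congr rfl fun i _ =>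
    Finset.sum_congr rfl fun k _ => ?_
  exact (H518.norm_toLp_sq (grad_L2 Ψ s i k)).symm

theorem potE_toFS (w : Conf N → ℝ) (Ψ : ElectronState N) :
    potE w Ψ = ∑ s, ∫ x, w x * ‖(toFS Ψ).1 (s, none) x‖ ^ 2 := by
  unfold potE
  refine Finset.sum_congr rfl fun s _ => integral_congr_ae ?_
  filter_upwards [amb_none_ae Ψ s] with x hx
  have h : (toFS Ψ).1 (s, none) x = amb Ψ (s, none) x := rfl
  rw [h, hx]

/-- the form of `-(1/2)Δ + w` on antisymmetric states -/
def formE (w : Conf N → ℝ) (hw : FBd w) : FS N →L⋆[ℂ] FS N →L[ℂ] ℂ :=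
  pull incl (formT + formW w hw)

theorem formE_apply (w : Conf N → ℝ) (hw : FBd w) (u v : FS N) :
    formE w hw u v = formT (incl u) (incl v) + potB w (incl u) (incl v) := rfl

theorem formE_herm (w : Conf N → ℝ) (hw : FBd w) : Abs.Herm (formE w hw) := by
  intro u v
  rw [formE_apply, formE_apply, map_add, formT_herm, potB_conj]

theorem energy_toFS (w : Conf N → ℝ) (hw : FBd w) (Ψ : ElectronState N) :
    energy w Ψ = Abs.qf (formE w hw) (toFS Ψ) := by
  have h1 := formT_self (incl (toFS Ψ))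
  have h2 := formW_self w hw (incl (toFS Ψ))
  unfold Abs.qf at h1 h2 ⊢
  rw [formE_apply, map_add, energy_eq]
  rw [formW_apply] at h2
  rw [h1, h2, kinE_toFS, potE_toFS]
  rfl

theorem energy_ofFS (w : Conf N → ℝ) (hw : FBd w) (u : FS N) :
    energy w (ofFS u) = Abs.qf (formE w hw) u := by
  have := energy_toFS w hw (ofFS u)
  rwa [toFS_ofFS] at this

theorem isGroundState_iff (w : Conf N → ℝ) (hw : FBd w) (Ψ : ElectronState N) :
    IsGroundState w Ψ ↔ ‖amF (toFS Ψ)‖ = 1 ∧ ∀ u : FS N, ‖amF u‖ = 1 →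
      Abs.qf (formE w hw) (toFS Ψ) ≤ Abs.qf (formE w hw) u := by
  unfold IsGroundState
  have hsq : ∀ a : ℝ, 0 ≤ a → (a ^ 2 = 1 ↔ a = 1) := fun a ha =>
    pow_eq_one_iff_of_nonneg ha two_ne_zero
  rw [normSq_toFS, hsq _ (norm_nonneg _)]
  refine and_congr_right fun _ => ⟨fun h u hu => ?_, fun h Φ hΦ => ?_⟩
  · have := h (ofFS u) (by rw [normSq_ofFS, hu]; norm_num)
    rwa [energy_toFS w hw, energy_ofFS w hw] at this
  · rw [energy_toFS w hw, energy_toFS w hw]
    refine h _ ?_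
    rw [← hsq _ (norm_nonneg _), ← normSq_toFS, hΦ]

end

end Vale.Agent.P363.H382
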