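import Vale.Agent.P363.R.KS.Calc

/-! Step K3 of the Kohn-Sham side: comparison in the exterior domain. -/

namespace Vale.Agent.P363.H382.KS3

open MeasureTheory Filter Topology
open Vale.Agent.P363.Stmt (R3 MemV)
open Vale.Agent.P363.R.Sob
open Vale.Agent.P363.R.KS
open scoped ContDiff ENNReal NNReal

noncomputable section

variable {v : R3 → ℝ} {μ δ : ℝ} {φ a s : R3 → ℝ} {gφ ga gs : Fin 3 → R3 → ℝ}

theorem fderiv_sq {χ : R3 → ℝ} (hχ : Test χ) (x : R3) (i : Fin 3) :
    fderiv ℝ (fun x => χ x * χ x) x (R.KS.dir i) = 2 * χ x * fderiv ℝ χ x (R.KS.dir i) := by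
  have hd : DifferentiableAt ℝ χ x := hχ.differentiable x
  rw [fderiv_fun_mul hd hd]
  simp
  ring

/-- localisation formula. -/
theorem qf_loc (hφ : H1 φ gφ)
    (eq : ∀ h k, H1 h k → qf v μ φ gφ h k = -δ * ∫ x, φ x * h x) {χ : R3 → ℝ} (hχ : Test χ) :
    qf v μ (fun x => χ x * φ x) (fun i x => fderiv ℝ χ x (R.KS.dir i) * φ x + χ x * gφ i x)
      (fun x => χ x * φ x) (fun i x => fderiv ℝ χ x (R.KS.dir i) * φ x + χ x * gφ i x) =
      (1 / 2) * (∫ x, (∑ i, (fderiv ℝ χ x (R.KS.dir i)) ^ 2) * φ x ^ 2) -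
        δ * ∫ x, χ x ^ 2 * φ x ^ 2 := by
  have hχ2 : Test (fun x => χ x * χ x) := hχ.mul hχ.contDiff
  have h1 := hφ.mul_test hχ
  have h2 := hφ.mul_test hχ2
  have e := eq _ _ h2
  have e1 : ∫ x, φ x * (χ x * χ x * φ x) = ∫ x, χ x ^ 2 * φ x ^ 2 := by
    congr 1; funext x; ring
  rw [e1] at e
  have hI1 : Integrable (fun x => ∑ i, gφ i x * (fderiv ℝ (fun x => χ x * χ x) x (R.KS.dir i) * φ x +
      χ x * χ x * gφ i x)) (volume : Measure R3) := hφ.integrable_dot h2
  have hI2 : Integrable (fun x => (∑ i, (fderiv ℝ χ x (R.KS.dir i)) ^ 2) * φ x ^ 2)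
      (volume : Measure R3) := by
    have : ∀ i : Fin 3, Integrable (fun x => (fderiv ℝ χ x (R.KS.dir i)) ^ 2 * φ x ^ 2)
        (volume : Measure R3) := by
      intro i
      have h3 := (hφ.mul_test (hχ.fderiv (R.KS.dir i))).mem.integrable_sq
      refine h3.congr (Eventually.of_forall fun x => ?_)
      simp only
      ring
    have h4 := integrable_finsetSum Finset.univ fun i _ => this i
    refine h4.congr (Eventually.of_forall fun x => ?_)
    simp only [Finset.sum_mul]
  have e2 : ∫ x, ∑ i, (fderiv ℝ χ x (R.KS.dir i) * φ x + χ x * gφ i x) *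
      (fderiv ℝ χ x (R.KS.dir i) * φ x + χ x * gφ i x) =
      (∫ x, (∑ i, (fderiv ℝ χ x (R.KS.dir i)) ^ 2) * φ x ^ 2) +
      ∫ x, ∑ i, gφ i x * (fderiv ℝ (fun x => χ x * χ x) x (R.KS.dir i) * φ x +
        χ x * χ x * gφ i x) := by
    rw [← integral_add hI2 hI1]
    congr 1
    funext x
    rw [Finset.sum_mul, ← Finset.sum_add_distrib]
    refine Finset.sum_congr rfl fun i _ => ?_
    rw [fderiv_sq hχ]
    ring
  have e3 : ∫ x, (v x - μ) * (χ x * φ x) * (χ x * φ x) =
      ∫ x, (v x - μ) * φ x * (χ x * χ x * φ x) := by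
    congr 1; funext x; ring
  unfold qf at e ⊢
  rw [e2, e3, mul_add]
  linarith

/-- **K3.** -/
theorem comparison (D : KSData v μ δ φ a s gφ ga gs) {c ρ₁ ρ₂ : ℝ} (hρ : ρ₁ < ρ₂) (hc : 0 < c)
    (hsh : ∀ᵐ x, ρ₁ < ‖x‖ → ‖x‖ < ρ₂ → c * s x ≤ a x) {χ : R3 → ℝ} (hχ : Test χ)
    (hχs : ∀ x, ρ₁ < ‖x‖ → χ x = 0)
    (hχn : (1 / 2) * (∫ x, (∑ i, (fderiv ℝ χ x (R.KS.dir i)) ^ 2) * φ x ^ 2) <
      δ * ∫ x, χ x ^ 2 * φ x ^ 2) :
    ∀ᵐ x, ρ₁ < ‖x‖ → c * s x ≤ a x := by
  set m : ℝ := (ρ₁ + ρ₂) / 2 with hm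
  have hm1 : ρ₁ < m := by rw [hm]; linarith
  have hm2 : m < ρ₂ := by rw [hm]; linarith
  -- the function `u = c s - a`
  have hu := (D.hs.const_mul c).sub D.ha
  have hup := hu.pos_part
  set u : R3 → ℝ := fun x => c * s x - a x with hu_def
  set gu : Fin 3 → R3 → ℝ := fun i x => c * gs i x - ga i x with hgu_def
  -- the cut-off
  set U : Set R3 := {x | m < ‖x‖} with hU
  set V : Set R3 := {x | ρ₁ < ‖x‖ ∧ ‖x‖ < ρ₂} with hV
  have hUo : IsOpen U := isOpen_lt continuous_const continuous_norm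
  have hVo : IsOpen V := (isOpen_lt continuous_const continuous_norm).inter
    (isOpen_lt continuous_norm continuous_const)
  have hcl : closure U ⊆ U ∪ V := by
    have h1 : closure U ⊆ {x | m ≤ ‖x‖} :=
      closure_minimal (fun x (hx : m < ‖x‖) => hx.le) (isClosed_le continuous_const continuous_norm)
    intro x hx
    have h2 := h1 hx
    rcases (show m ≤ ‖x‖ from h2).eq_or_lt with h3 | h3
    · exact Or.inr ⟨by rw [← h3]; exact hm1, by rw [← h3]; exact hm2⟩
    · exact Or.inl h3
  have hz : ∀ᵐ x, x ∈ V → max (u x) 0 = 0 := by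
    filter_upwards [hsh] with x hx hxV
    have := hx hxV.1 hxV.2
    exact max_eq_right (by simp only [hu_def]; linarith)
  set G : R3 → ℝ := U.indicator fun x => max (u x) 0 with hG
  set gG : Fin 3 → R3 → ℝ := fun i => U.indicator fun x => if 0 < u x then gu i x else 0 with hgG
  have hGH : H1 G gG := by
    refine ⟨hup.mem.indicator hUo.measurableSet, fun i => (hup.gmem i).indicator
      hUo.measurableSet, fun i => ?_⟩
    exact (hup.wd i).indicator hup.locInt (hup.glocInt i) hUo hVo hcl hz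
  have hG0 : ∀ x, 0 ≤ G x := fun x => by
    rw [hG]; exact Set.indicator_nonneg (fun y _ => le_max_right _ _) x
  -- `q(G,G) ≤ 0`
  have hqG : qf v μ G gG G gG ≤ 0 := by
    have e1 : qf v μ G gG G gG = qf v μ u gu G gG := by
      unfold qf
      have i1 : ∀ x, ∑ i, gG i x * gG i x = ∑ i, gu i x * gG i x := by
        intro x
        refine Finset.sum_congr rfl fun i _ => ?_
        simp only [hgG]
        by_cases hx : x ∈ U
        · simp only [Set.indicator_of_mem hx]
          split_ifs <;> simp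
        · simp only [Set.indicator_of_notMem hx, mul_zero]
      have i2 : ∀ x, (v x - μ) * G x * G x = (v x - μ) * u x * G x := by
        intro x
        simp only [hG]
        by_cases hx : x ∈ U
        · simp only [Set.indicator_of_mem hx]
          rcases le_total (u x) 0 with h | h
          · rw [max_eq_right h]; ring
          · rw [max_eq_left h]
        · simp only [Set.indicator_of_notMem hx, mul_zero]
      simp only [i1, i2]
    have e2 : qf v μ u gu G gG = c * qf v μ s gs G gG - qf v μ a ga G gG := by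
      rw [← qf_smul_left]
      exact qf_sub_left D.memV (D.hs.const_mul c) D.ha hGH
    rw [e1, e2, D.eqa _ _ hGH]
    have := D.subs _ _ hGH (Eventually.of_forall hG0)
    nlinarith
  -- the localised first orbital
  have hχφ := D.hφ.mul_test hχ
  have hq := qf_loc D.hφ D.eqφ hχ
  set w : R3 → ℝ := fun x => χ x * φ x with hw
  set gw : Fin 3 → R3 → ℝ :=
    fun i x => fderiv ℝ χ x (R.KS.dir i) * φ x + χ x * gφ i x with hgw
  have hqw : qf v μ w gw w gw < 0 := by
    rw [hq]; linarith
  have hne : ∫ x, φ x * w x ≠ 0 := fun h0 => by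
    have := D.pos w gw hχφ h0
    linarith
  set t : ℝ := (∫ x, φ x * G x) / ∫ x, φ x * w x with ht
  have hsub := hGH.sub (hχφ.const_mul t)
  have iφG : Integrable (fun x => φ x * G x) (volume : Measure R3) :=
    D.hφ.mem.integrable_mul hGH.mem
  have iφw : Integrable (fun x => φ x * w x) (volume : Measure R3) :=
    D.hφ.mem.integrable_mul hχφ.mem
  have horth : ∫ x, φ x * (G x - t * w x) = 0 := by
    have e : ∀ x, φ x * (G x - t * w x) = φ x * G x - t * (φ x * w x) := fun x => by ring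
    simp only [e]
    rw [integral_sub iφG (iφw.const_mul t), integral_const_mul, ht, div_mul_cancel₀ _ hne]
    ring
  have hpos := D.pos _ _ hsub horth
  have hdis : qf v μ G gG w gw = 0 := by
    refine qf_eq_zero_of_disjoint hGH hχφ (Eventually.of_forall fun x => ?_)
    by_cases hx : x ∈ U
    · right
      have : χ x = 0 := hχs x (hm1.trans hx)
      simp [hw, this]
    · left
      simp only [hG, Set.indicator_of_notMem hx]
  have hdis' : qf v μ w gw G gG = 0 := by rw [qf_comm]; exact hdis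
  have hexp : qf v μ (fun x => G x - t * w x) (fun i x => gG i x - t * gw i x)
      (fun x => G x - t * w x) (fun i x => gG i x - t * gw i x) =
      qf v μ G gG G gG + t ^ 2 * qf v μ w gw w gw := by
    rw [qf_sub_left D.memV hGH (hχφ.const_mul t) hsub, qf_sub_right D.memV hGH (hχφ.const_mul t) hGH,
      qf_sub_right D.memV hGH (hχφ.const_mul t) (hχφ.const_mul t), qf_smul_right, qf_smul_left,
      qf_smul_left, qf_smul_right, hdis, hdis']
    ring
  rw [hexp] at hpos
  have ht0 : t = 0 := by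
    by_contra hne'
    have : 0 < t ^ 2 := by positivity
    nlinarith
  have hφG : ∫ x, φ x * G x = 0 := by
    have : t * ∫ x, φ x * w x = ∫ x, φ x * G x := by rw [ht]; exact div_mul_cancel₀ _ hne
    rw [← this, ht0, zero_mul]
  have hz2 : (fun x => φ x * G x) =ᵐ[volume] 0 := by
    rw [← integral_eq_zero_iff_of_nonneg_ae _ iφG]
    · exact hφG
    · filter_upwards [D.φpos] with x hx
      exact mul_nonneg hx.le (hG0 x)
  filter_upwards [hz2, D.φpos, hsh] with x h1 h2 h3 h4
  by_cases hx : x ∈ U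
  · have h5 : G x = 0 := by
      have : φ x * G x = 0 := h1
      rcases mul_eq_zero.1 this with h | h
      · exact absurd h h2.ne'
      · exact h
    simp only [hG, Set.indicator_of_mem hx] at h5
    have h6 : u x ≤ 0 := max_eq_right_iff.1 h5
    simp only [hu_def] at h6
    linarith
  · have : ‖x‖ ≤ m := not_lt.1 hx
    exact h3 h4 (this.trans_lt hm2)

end

end Vale.Agent.P363.H382.KS3
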