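import Vale.Agent.P363.R.Sob.S01
import Vale.Agent.P363.R.Sob.Density
import Vale.Agent.P363.H382.Conv

/-! Slices of weakly differentiable functions on a product, and contractions. -/

namespace Vale.Agent.P363.H382

open MeasureTheory Filter Topology Stmt R.Sob
open scoped ContDiff ENNReal ComplexConjugate

noncomputable section

set_option linter.unusedSectionVars false

theorem eLpNorm_two_sq {α F : Type*} [MeasurableSpace α] {μ : Measure α} [NormedAddCommGroup F]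
    (f : α → F) : eLpNorm f 2 μ ^ 2 = ∫⁻ x, ‖f x‖ₑ ^ 2 ∂μ := by
  rw [eLpNorm_eq_lintegral_rpow_enorm_toReal (by norm_num) (by norm_num)]
  simp only [ENNReal.toReal_ofNat, ENNReal.rpow_ofNat]
  rw [← ENNReal.rpow_natCast, ← ENNReal.rpow_mul]
  norm_num

section prod

variable {E₁ : Type*} [NormedAddCommGroup E₁] [NormedSpace ℝ E₁] [FiniteDimensional ℝ E₁]
  [MeasurableSpace E₁] [BorelSpace E₁]
variable {E₂ : Type*} [NormedAddCommGroup E₂] [NormedSpace ℝ E₂] [FiniteDimensional ℝ E₂]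
  [MeasurableSpace E₂] [BorelSpace E₂]
variable {F : Type*} [NormedAddCommGroup F] [NormedSpace ℝ F] [CompleteSpace F]
variable {μ : Measure E₁} [μ.IsAddHaarMeasure] {ν : Measure E₂} [ν.IsAddHaarMeasure]

theorem eLpNorm_slice_sq {f : E₁ × E₂ → F} (hf : AEStronglyMeasurable f (μ.prod ν)) :
    ∫⁻ x, eLpNorm (fun y => f (x, y)) 2 ν ^ 2 ∂μ = eLpNorm f 2 (μ.prod ν) ^ 2 := by
  simp only [eLpNorm_two_sq]
  rw [lintegral_prod _ (hf.enorm.pow_const 2)]

theorem ae_slice_memLp {f : E₁ × E₂ → F} (hf : MemLp f 2 (μ.prod ν)) :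
    ∀ᵐ x ∂μ, MemLp (fun y => f (x, y)) 2 ν := by
  have h1 := eLpNorm_slice_sq (μ := μ) (ν := ν) hf.1
  have hfin : ∫⁻ x, eLpNorm (fun y => f (x, y)) 2 ν ^ 2 ∂μ ≠ ⊤ := by
    rw [h1]
    exact ENNReal.pow_ne_top hf.2.ne
  have hmeas : AEMeasurable (fun x => eLpNorm (fun y => f (x, y)) 2 ν ^ 2) μ := by
    simp only [eLpNorm_two_sq]
    exact (hf.1.enorm.pow_const 2).lintegral_prod_right'
  filter_upwards [ae_lt_top' hmeas hfin, hf.1.prodMk_left] with x hx hx'
  refine ⟨hx', ?_⟩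
  by_contra hcon
  push Not at hcon
  have : eLpNorm (fun y => f (x, y)) 2 ν = ⊤ := top_le_iff.1 hcon
  rw [this] at hx
  simp at hx

/-- a sequence converging in `L²` of the product has a subsequence whose slices converge for
almost every value of the first variable. -/
theorem exists_subseq_slice {f : E₁ × E₂ → F} {fn : ℕ → E₁ × E₂ → F}
    (hm : ∀ n, AEStronglyMeasurable (fn n - f) (μ.prod ν))
    (h : Tendsto (fun n => eLpNorm (fn n - f) 2 (μ.prod ν)) atTop (𝓝 0)) :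
    ∃ φ : ℕ → ℕ, StrictMono φ ∧ ∀ᵐ x ∂μ, Tendsto (fun n => eLpNorm
      ((fun y => fn (φ n) (x, y)) - fun y => f (x, y)) 2 ν) atTop (𝓝 0) := by
  have hε : ∀ n : ℕ, (0 : ℝ≥0∞) < (2⁻¹ : ℝ≥0∞) ^ n := fun n => by
    apply ENNReal.pow_pos
    simp
  have h' : ∀ n : ℕ, ∀ᶠ m in atTop, eLpNorm (fn m - f) 2 (μ.prod ν) ^ 2 < (2⁻¹ : ℝ≥0∞) ^ n := by
    intro n
    have : Tendsto (fun m => eLpNorm (fn m - f) 2 (μ.prod ν) ^ 2) atTop (𝓝 0) := by
      have := (ENNReal.continuous_pow 2).tendsto 0 |>.comp h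
      simpa [Function.comp_def] using this
    exact (tendsto_order.1 this).2 _ (hε n)
  obtain ⟨φ, hφ, hφ'⟩ := extraction_forall_of_eventually h'
  refine ⟨φ, hφ, ?_⟩
  have hsum : ∑' n, eLpNorm (fn (φ n) - f) 2 (μ.prod ν) ^ 2 ≠ ⊤ := by
    refine ne_top_of_le_ne_top ?_ (ENNReal.tsum_le_tsum fun n => (hφ' n).le)
    rw [ENNReal.tsum_geometric]
    simp
  have hm2 : ∀ n, AEMeasurable (fun x => eLpNorm
      ((fun y => fn (φ n) (x, y)) - fun y => f (x, y)) 2 ν ^ 2) μ := by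
    intro n
    simp only [eLpNorm_two_sq]
    exact ((hm (φ n)).enorm.pow_const 2).lintegral_prod_right'
  have e1 : ∫⁻ x, ∑' n, eLpNorm ((fun y => fn (φ n) (x, y)) - fun y => f (x, y)) 2 ν ^ 2 ∂μ =
      ∑' n, eLpNorm (fn (φ n) - f) 2 (μ.prod ν) ^ 2 := by
    rw [lintegral_tsum hm2]
    congr 1
    funext n
    exact eLpNorm_slice_sq (f := fn (φ n) - f) (hm (φ n))
  have hae := ae_lt_top' (AEMeasurable.tsum hm2) (by rw [e1]; exact hsum)
  filter_upwards [hae] with x hx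
  have h0 := ENNReal.tendsto_atTop_zero_of_tsum_ne_top hx.ne
  have : (fun n => eLpNorm ((fun y => fn (φ n) (x, y)) - fun y => f (x, y)) 2 ν) = fun n =>
      (eLpNorm ((fun y => fn (φ n) (x, y)) - fun y => f (x, y)) 2 ν ^ 2) ^ (1 / 2 : ℝ) := by
    funext n
    rw [← ENNReal.rpow_natCast, ← ENNReal.rpow_mul]
    norm_num
  rw [this]
  have h2 := (ENNReal.continuous_rpow_const (y := (1 / 2 : ℝ))).tendsto 0 |>.comp h0
  simpa [Function.comp_def] using h2

/-- **slices.** -/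
theorem ae_slice_isWD {f g : E₁ × E₂ → F} {v : E₂} (hf : MemLp f 2 (μ.prod ν))
    (hg : MemLp g 2 (μ.prod ν)) (h : IsWD (μ.prod ν) ((0 : E₁), v) f g) :
    ∀ᵐ x ∂μ, IsWD ν v (fun y => f (x, y)) (fun y => g (x, y)) := by
  obtain ⟨fn, hfc, hfs, hf0, hg0⟩ := exists_test_approx (ι := Unit) (b := fun _ => ((0 : E₁), v))
    (g := fun _ => g) hf (fun _ => hg) (fun _ => h)
  have hg0 := hg0 ()
  have hmf : ∀ n, MemLp (fn n) 2 (μ.prod ν) := fun n =>
    (hfc n).continuous.memLp_of_hasCompactSupport (hfs n)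
  have hfd : ∀ n, Continuous fun x => fderiv ℝ (fn n) x ((0 : E₁), v) := fun n =>
    ((hfc n).continuous_fderiv (by simp)).clm_apply continuous_const
  have hmg : ∀ n, MemLp (fun x => fderiv ℝ (fn n) x ((0 : E₁), v)) 2 (μ.prod ν) := fun n =>
    (hfd n).memLp_of_hasCompactSupport ((hfs n).fderiv_apply (𝕜 := ℝ) _)
  obtain ⟨φ, hφ, hφa⟩ := exists_subseq_slice (μ := μ) (ν := ν)
    (fun n => ((hmf n).sub hf).1) hf0
  obtain ⟨ψ, hψ, hψa⟩ := exists_subseq_slice (μ := μ) (ν := ν) (f := g)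
    (fn := fun n => (fun x => fderiv ℝ (fn (φ n)) x ((0 : E₁), v)))
    (fun n => ((hmg (φ n)).sub hg).1) (hg0.comp hφ.tendsto_atTop)
  filter_upwards [hφa, hψa, ae_slice_memLp hf, ae_slice_memLp hg] with x h1 h2 h3 h4
  have hcf : ∀ n, Continuous fun y => fn (φ (ψ n)) (x, y) := fun n =>
    (hfc _).continuous.comp (by fun_prop)
  have hcg : ∀ n, Continuous fun y => fderiv ℝ (fn (φ (ψ n))) (x, y) ((0 : E₁), v) := fun n =>
    (hfd _).comp (by fun_prop)
  have hemb : Topology.IsClosedEmbedding (fun y : E₂ => (x, y)) := by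
    refine Topology.IsClosedEmbedding.of_continuous_injective_isClosedMap (by fun_prop)
      (fun a b hab => (Prod.mk.inj hab).2) ?_
    intro s hs
    have : (fun y : E₂ => (x, y)) '' s = {x} ×ˢ s := by
      ext ⟨a, b⟩
      simp only [Set.mem_image, Prod.mk.injEq, Set.mem_prod, Set.mem_singleton_iff]
      constructor
      · rintro ⟨c, hc, rfl, rfl⟩
        exact ⟨rfl, hc⟩
      · rintro ⟨rfl, hb⟩
        exact ⟨b, hb, rfl, rfl⟩
    rw [this]
    exact isClosed_singleton.prod hs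
  refine IsWD.of_tendsto (l := atTop) (fn := fun n y => fn (φ (ψ n)) (x, y))
    (gn := fun n y => fderiv ℝ (fn (φ (ψ n))) (x, y) ((0 : E₁), v)) (Eventually.of_forall fun n => ?_)
    (fun n => ?_) (fun n => ?_) h3 h4 ?_ ?_
  · refine isWD_of_differentiable (hcf n) (fun y => ?_) (hcg n).locallyIntegrable
    have hd : HasFDerivAt (fn (φ (ψ n))) (fderiv ℝ (fn (φ (ψ n))) (x, y)) (x, y) :=
      ((hfc _).differentiable (by simp) _).hasFDerivAt
    have h5 : HasFDerivAt (fun z : E₂ => (x, z)) (ContinuousLinearMap.inr ℝ E₁ E₂) y :=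
      hasFDerivAt_prodMk_right x y
    have h6 := (hd.comp y h5).hasLineDerivAt v
    simpa [Function.comp_def] using h6
  · exact (hcf n).memLp_of_hasCompactSupport ((hfs _).comp_isClosedEmbedding hemb)
  · exact (hcg n).memLp_of_hasCompactSupport
      (((hfs (φ (ψ n))).fderiv_apply (𝕜 := ℝ) ((0 : E₁), v)).comp_isClosedEmbedding hemb)
  · exact h1.comp hψ.tendsto_atTop
  · exact h2

end prod

end

end Vale.Agent.P363.H382
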